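import Mathlib

/-! Row 268, S0410: algebraic identities for the polynomial `F` and its inverse coordinates. -/

set_option autoImplicit false

namespace Crest.Agent.R268.Comm

section fns
variable {R : Type*} [CommRing R] (x y z u : R)

def q : R := y ^ 2 - 1 + x * z
def p : R := y * q x y z + x * u
def r : R := 2 * y * q x y z * u + x * u ^ 2 - q x y z ^ 2 * z
def e : R := y * u - q x y z * z
def al : R := 2 * (r x y z u + 1) * (r x y z u + 2)
def ga : R := (r x y z u + 2) * (3 * q x y z + 3 * r x y z u ^ 2 + 6 * r x y z u + 2)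
/-- the polynomial `F` -/
def Ff : R := x + al x y z u * p x y z u - ga x y z u * q x y z
def q' : R := q x y z + r x y z u * (r x y z u + 2)
def p' : R := p x y z u + r x y z u * (r x y z u + 1) * (r x y z u + 2)
def s : R := y + al x y z u * e x y z u + ga x y z u * u

theorem id0 : x * r x y z u = p x y z u ^ 2 - q x y z ^ 3 - q x y z ^ 2 := by
  simp only [p, r, q]; ring

theorem id1 : Ff x y z u * r x y z u = p' x y z u ^ 2 - q' x y z u ^ 3 - q' x y z u ^ 2 := by
  have h := id0 x y z u
  simp only [Ff, p', q', al, ga]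
  linear_combination h

theorem id_x : x = Ff x y z u - al x y z u * p x y z u + ga x y z u * q x y z := by
  simp only [Ff]; ring

theorem id2 : Ff x y z u * y = x * s x y z u + al x y z u * q x y z * (q x y z + 1)
    - ga x y z u * p x y z u := by
  generalize ha : al x y z u = a
  generalize hg : ga x y z u = g
  simp only [Ff, s, ha, hg, p, e, q]; ring

theorem id3 : Ff x y z u * u = -q x y z * s x y z u + p x y z u + al x y z u * r x y z u := by
  generalize ha : al x y z u = a
  generalize hg : ga x y z u = g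
  simp only [Ff, s, ha, hg, p, e, q, r]; ring

theorem id4 : Ff x y z u ^ 2 * z = -x * s x y z u ^ 2
    - 2 * (al x y z u * q x y z * (q x y z + 1) - ga x y z u * p x y z u) * s x y z u
    + (q x y z + 1) * (x + 2 * al x y z u * p x y z u - 2 * ga x y z u * q x y z)
    + (al x y z u ^ 2 * (q x y z + 1) - ga x y z u ^ 2) * r x y z u := by
  generalize ha : al x y z u = a
  generalize hg : ga x y z u = g
  simp only [Ff, s, ha, hg, p, e, q, r]; ring

end fns

section inv
variable {R : Type*} [CommRing R] (T t Q P S : R)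

def ir : R := (P ^ 2 - Q ^ 3 - Q ^ 2) * t
def iq : R := Q - ir t Q P * (ir t Q P + 2)
def ip : R := P - ir t Q P * (ir t Q P + 1) * (ir t Q P + 2)
def ial : R := 2 * (ir t Q P + 1) * (ir t Q P + 2)
def iga : R := (ir t Q P + 2) * (3 * iq t Q P + 3 * ir t Q P ^ 2 + 6 * ir t Q P + 2)
def ix : R := T - ial t Q P * ip t Q P + iga t Q P * iq t Q P
def iy : R := (ix T t Q P * S + ial t Q P * iq t Q P * (iq t Q P + 1)
    - iga t Q P * ip t Q P) * t
def iu : R := (-iq t Q P * S + ip t Q P + ial t Q P * ir t Q P) * t
def iz : R := (-ix T t Q P * S ^ 2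
    - 2 * (ial t Q P * iq t Q P * (iq t Q P + 1) - iga t Q P * ip t Q P) * S
    + (iq t Q P + 1) * (ix T t Q P + 2 * ial t Q P * ip t Q P - 2 * iga t Q P * iq t Q P)
    + (ial t Q P ^ 2 * (iq t Q P + 1) - iga t Q P ^ 2) * ir t Q P) * t ^ 2

variable {T t} (hT : T * t = 1)
include hT

theorem inv0 : ix T t Q P * ir t Q P = ip t Q P ^ 2 - iq t Q P ^ 3 - iq t Q P ^ 2 := by
  have h : T * ir t Q P = P ^ 2 - Q ^ 3 - Q ^ 2 := by
    simp only [ir]; linear_combination (P ^ 2 - Q ^ 3 - Q ^ 2) * hT
  have h2 : Q = iq t Q P + ir t Q P * (ir t Q P + 2) := by simp only [iq]; ring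
  have h3 : P = ip t Q P + ir t Q P * (ir t Q P + 1) * (ir t Q P + 2) := by simp only [ip]; ring
  simp only [ix, ial, iga]
  generalize hr : ir t Q P = r at *
  generalize hq : iq t Q P = q at *
  generalize hp : ip t Q P = p at *
  subst h2; subst h3
  linear_combination h

theorem inv_q : q (ix T t Q P) (iy T t Q P S) (iz T t Q P S) = iq t Q P := by
  have h0 := inv0 Q P hT
  have hx : ix T t Q P = T - ial t Q P * ip t Q P + iga t Q P * iq t Q P := rfl
  simp only [q, iy, iz]
  generalize ix T t Q P = x at *
  generalize ir t Q P = r at *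
  generalize iq t Q P = q at *
  generalize ip t Q P = p at *
  generalize ial t Q P = a at *
  generalize iga t Q P = g at *
  have hT' : T = x + a * p - g * q := by linear_combination -hx
  have key : (x * S + a * q * (q + 1) - g * p) ^ 2 - T ^ 2 + x * (-x * S ^ 2
    - 2 * (a * q * (q + 1) - g * p) * S
    + (q + 1) * (x + 2 * a * p - 2 * g * q)
    + (a ^ 2 * (q + 1) - g ^ 2) * r) = q * T ^ 2 := by
    subst hT'
    linear_combination (a ^ 2 * (q + 1) - g ^ 2) * h0
  linear_combination t ^ 2 * key + (1 + q) * (T * t + 1) * hT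

theorem inv_p : p (ix T t Q P) (iy T t Q P S) (iz T t Q P S) (iu t Q P S) = ip t Q P := by
  have h0 := inv0 Q P hT
  have hx : ix T t Q P = T - ial t Q P * ip t Q P + iga t Q P * iq t Q P := rfl
  rw [p, inv_q Q P S hT]
  simp only [iy, iu]
  generalize ix T t Q P = x at *
  generalize ir t Q P = r at *
  generalize iq t Q P = q at *
  generalize ip t Q P = p at *
  generalize ial t Q P = a at *
  generalize iga t Q P = g at *
  have hT' : T = x + a * p - g * q := by linear_combination -hx
  have key : (x * S + a * q * (q + 1) - g * p) * q + x * (-q * S + p + a * r) = p * T := by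
    subst hT'
    linear_combination a * h0
  linear_combination t * key + p * hT

theorem inv_r : r (ix T t Q P) (iy T t Q P S) (iz T t Q P S) (iu t Q P S) = ir t Q P := by
  have h0 := inv0 Q P hT
  have hx : ix T t Q P = T - ial t Q P * ip t Q P + iga t Q P * iq t Q P := rfl
  rw [r, inv_q Q P S hT]
  simp only [iy, iu, iz]
  generalize ix T t Q P = x at *
  generalize ir t Q P = r at *
  generalize iq t Q P = q at *
  generalize ip t Q P = p at *
  generalize ial t Q P = a at *
  generalize iga t Q P = g at *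
  have hT' : T = x + a * p - g * q := by linear_combination -hx
  have key : 2 * (x * S + a * q * (q + 1) - g * p) * q * (-q * S + p + a * r)
      + x * (-q * S + p + a * r) ^ 2 - q ^ 2 * (-x * S ^ 2
    - 2 * (a * q * (q + 1) - g * p) * S
    + (q + 1) * (x + 2 * a * p - 2 * g * q)
    + (a ^ 2 * (q + 1) - g ^ 2) * r) = r * T ^ 2 := by
    subst hT'
    linear_combination (a ^ 2 * r + 2 * g * q - x) * h0
  linear_combination t ^ 2 * key + r * (T * t + 1) * hT

theorem inv_al : al (ix T t Q P) (iy T t Q P S) (iz T t Q P S) (iu t Q P S) = ial t Q P := by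
  rw [al, ial, inv_r Q P S hT]

theorem inv_ga : ga (ix T t Q P) (iy T t Q P S) (iz T t Q P S) (iu t Q P S) = iga t Q P := by
  rw [ga, iga, inv_r Q P S hT, inv_q Q P S hT]

theorem inv_F : Ff (ix T t Q P) (iy T t Q P S) (iz T t Q P S) (iu t Q P S) = T := by
  rw [Ff, inv_al Q P S hT, inv_ga Q P S hT, inv_q Q P S hT, inv_p Q P S hT, ix]; ring

theorem inv_q' : q' (ix T t Q P) (iy T t Q P S) (iz T t Q P S) (iu t Q P S) = Q := by
  rw [q', inv_r Q P S hT, inv_q Q P S hT, iq]; ring

theorem inv_p' : p' (ix T t Q P) (iy T t Q P S) (iz T t Q P S) (iu t Q P S) = P := by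
  rw [p', inv_r Q P S hT, inv_p Q P S hT, ip]; ring

theorem inv_e : T * e (ix T t Q P) (iy T t Q P S) (iz T t Q P S) (iu t Q P S)
    = ip t Q P * S - iq t Q P * (iq t Q P + 1) - iga t Q P * ir t Q P := by
  have h0 := inv0 Q P hT
  have hx : ix T t Q P = T - ial t Q P * ip t Q P + iga t Q P * iq t Q P := rfl
  rw [e, inv_q Q P S hT]
  simp only [iy, iu, iz]
  generalize ix T t Q P = x at *
  generalize ir t Q P = r at *
  generalize iq t Q P = q at *
  generalize ip t Q P = p at *
  generalize ial t Q P = a at *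
  generalize iga t Q P = g at *
  have hT' : T = x + a * p - g * q := by linear_combination -hx
  have key : (x * S + a * q * (q + 1) - g * p) * (-q * S + p + a * r) - q * (-x * S ^ 2
    - 2 * (a * q * (q + 1) - g * p) * S
    + (q + 1) * (x + 2 * a * p - 2 * g * q)
    + (a ^ 2 * (q + 1) - g ^ 2) * r) = T * (p * S - q * (q + 1) - g * r) := by
    subst hT'
    linear_combination (a * S + g) * h0
  linear_combination T * t ^ 2 * key + (p * S - q * (q + 1) - g * r) * (T * t + 1) * hT

theorem inv_s : s (ix T t Q P) (iy T t Q P S) (iz T t Q P S) (iu t Q P S) = S := by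
  have he := inv_e Q P S hT
  have hx : ix T t Q P = T - ial t Q P * ip t Q P + iga t Q P * iq t Q P := rfl
  rw [s, inv_al Q P S hT, inv_ga Q P S hT]
  have key : T * (iy T t Q P S + ial t Q P * e (ix T t Q P) (iy T t Q P S) (iz T t Q P S) (iu t Q P S)
      + iga t Q P * iu t Q P S) = T * S := by
    simp only [iy, iu] at *
    generalize ix T t Q P = x at *
    generalize ir t Q P = r at *
    generalize iq t Q P = q at *
    generalize ip t Q P = p at *
    generalize ial t Q P = a at *
    generalize iga t Q P = g at *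
    linear_combination a * he + ((x * S + a * q * (q + 1) - g * p)
      + g * (-q * S + p + a * r)) * hT + S * hx
  linear_combination t * key - (iy T t Q P S + ial t Q P * e (ix T t Q P) (iy T t Q P S) (iz T t Q P S) (iu t Q P S)
      + iga t Q P * iu t Q P S) * hT + S * hT

end inv

section map
variable {R R' : Type*} [CommRing R] [CommRing R'] (φ : R →+* R') (x y z u : R)

theorem map_q : φ (q x y z) = q (φ x) (φ y) (φ z) := by simp [q]
theorem map_p : φ (p x y z u) = p (φ x) (φ y) (φ z) (φ u) := by simp [p, map_q]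
theorem map_r : φ (r x y z u) = r (φ x) (φ y) (φ z) (φ u) := by simp [r, map_q, map_ofNat]
theorem map_e : φ (e x y z u) = e (φ x) (φ y) (φ z) (φ u) := by simp [e, map_q]
theorem map_al : φ (al x y z u) = al (φ x) (φ y) (φ z) (φ u) := by simp [al, map_r, map_ofNat]
theorem map_ga : φ (ga x y z u) = ga (φ x) (φ y) (φ z) (φ u) := by simp [ga, map_r, map_q, map_ofNat]
theorem map_F : φ (Ff x y z u) = Ff (φ x) (φ y) (φ z) (φ u) := by
  simp [Ff, map_al, map_ga, map_p, map_q]
theorem map_q' : φ (q' x y z u) = q' (φ x) (φ y) (φ z) (φ u) := by simp [q', map_r, map_q, map_ofNat]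
theorem map_p' : φ (p' x y z u) = p' (φ x) (φ y) (φ z) (φ u) := by simp [p', map_r, map_p, map_ofNat]
theorem map_s : φ (s x y z u) = s (φ x) (φ y) (φ z) (φ u) := by
  simp [s, map_al, map_ga, map_e]

end map

end Crest.Agent.R268.Comm
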