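import Crest.Agent.R268.CommA

/-! Row 268, S0410: general facts on partial derivatives. -/

set_option autoImplicit false
set_option linter.unusedSimpArgs false

namespace Crest.Agent.R268.Comm

open MvPolynomial

section general
variable {σ K : Type*} [Field K] [CharZero K]

omit [CharZero K] in
theorem pderiv_comm (a b : σ) (f : MvPolynomial σ K) :
    pderiv a (pderiv b f) = pderiv b (pderiv a f) := by
  classical
  ext m
  by_cases h : a = b
  · subst h; rfl
  · have h' : b ≠ a := fun h'' => h h''.symm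
    simp only [coeff_pderiv, Finsupp.add_apply, Finsupp.single_apply, h, h', if_false, add_zero]
    have : m + Finsupp.single a 1 + Finsupp.single b 1 = m + Finsupp.single b 1 + Finsupp.single a 1 := by
      abel
    rw [this]; ring

omit [CharZero K] in
theorem coeff_iterate_pderiv (a : σ) (f : MvPolynomial σ K) (k : ℕ) :
    ∀ m : σ →₀ ℕ, ∃ c : K, coeff m ((pderiv a)^[k] f) = coeff (m + Finsupp.single a k) f * c := by
  induction k with
  | zero => intro m; exact ⟨1, by simp⟩
  | succ k ih =>
    intro m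
    obtain ⟨c, hc⟩ := ih (m + Finsupp.single a 1)
    refine ⟨c * (m a + 1), ?_⟩
    rw [Function.iterate_succ', Function.comp_apply, coeff_pderiv, hc]
    have : m + Finsupp.single a 1 + Finsupp.single a k = m + Finsupp.single a (k + 1) := by
      rw [add_assoc, ← Finsupp.single_add, add_comm 1 k]
    rw [this]; ring

omit [CharZero K] in
theorem pderiv_nilp (a : σ) (f : MvPolynomial σ K) : ∃ k : ℕ, (pderiv a)^[k] f = 0 := by
  classical
  refine ⟨degreeOf a f + 1, ?_⟩
  ext m
  obtain ⟨c, hc⟩ := coeff_iterate_pderiv a f (degreeOf a f + 1) m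
  rw [hc, coeff_zero]
  by_cases h : coeff (m + Finsupp.single a (degreeOf a f + 1)) f = 0
  · rw [h, zero_mul]
  · exfalso
    have := monomial_le_degreeOf a (mem_support_iff.2 h)
    simp at this
    omega

theorem eq_C_of_pderiv_eq_zero {R : Type*} [CommRing R] [IsDomain R] [CharZero R]
    (f : MvPolynomial σ R) (h : ∀ a, pderiv a f = 0) : ∃ c, f = C c := by
  classical
  refine ⟨coeff 0 f, ?_⟩
  ext m
  rw [coeff_C]
  split_ifs with hm
  · rw [← hm]
  · have : ∃ i, m i ≠ 0 := by
      by_contra hcon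
      push Not at hcon
      exact hm (Finsupp.ext fun i => by simp [hcon i])
    obtain ⟨i, hi⟩ := this
    have h1 : coeff (m - Finsupp.single i 1) (pderiv i f) = 0 := by rw [h i, coeff_zero]
    rw [coeff_pderiv] at h1
    have h2 : m - Finsupp.single i 1 + Finsupp.single i 1 = m := by
      apply tsub_add_cancel_of_le
      rw [Finsupp.single_le_iff]
      omega
    rw [h2] at h1
    rcases mul_eq_zero.1 h1 with h3 | h3
    · exact h3
    · exfalso
      exact Nat.cast_add_one_ne_zero _ h3

end general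

section der
variable {B : Type*} [CommRing B] {k : Type*} [CommRing k] [Algebra k B]
  (D : Derivation k B B) {T t Q P S : B}

theorem der_ir (ht : D t = 0) (hQ : D Q = 0) (hP : D P = 0) : D (ir t Q P) = 0 := by
  simp [ir, Derivation.leibniz, Derivation.leibniz_pow, ht, hQ, hP]

theorem der_iq (ht : D t = 0) (hQ : D Q = 0) (hP : D P = 0) : D (iq t Q P) = 0 := by
  have h2 : D (2 : B) = 0 := by exact_mod_cast D.map_natCast 2
  simp [iq, Derivation.leibniz, Derivation.leibniz_pow, hQ, der_ir D ht hQ hP, h2]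

theorem der_ip (ht : D t = 0) (hQ : D Q = 0) (hP : D P = 0) : D (ip t Q P) = 0 := by
  have h2 : D (2 : B) = 0 := by exact_mod_cast D.map_natCast 2
  simp [ip, Derivation.leibniz, Derivation.leibniz_pow, hP, der_ir D ht hQ hP, h2]

theorem der_ial (ht : D t = 0) (hQ : D Q = 0) (hP : D P = 0) : D (ial t Q P) = 0 := by
  have h2 : D (2 : B) = 0 := by exact_mod_cast D.map_natCast 2
  simp [ial, Derivation.leibniz, Derivation.leibniz_pow, der_ir D ht hQ hP, h2]

theorem der_iga (ht : D t = 0) (hQ : D Q = 0) (hP : D P = 0) : D (iga t Q P) = 0 := by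
  have h2 : D (2 : B) = 0 := by exact_mod_cast D.map_natCast 2
  have h3 : D (3 : B) = 0 := by exact_mod_cast D.map_natCast 3
  have h6 : D (6 : B) = 0 := by exact_mod_cast D.map_natCast 6
  simp [iga, Derivation.leibniz, Derivation.leibniz_pow, der_ir D ht hQ hP,
    der_iq D ht hQ hP, h2, h3, h6]

theorem der_ix (hT : D T = 0) (ht : D t = 0) (hQ : D Q = 0) (hP : D P = 0) :
    D (ix T t Q P) = 0 := by
  simp [ix, Derivation.leibniz, Derivation.leibniz_pow, der_ial D ht hQ hP,
    der_iga D ht hQ hP, der_ip D ht hQ hP, der_iq D ht hQ hP, hT]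

theorem der_iy (hT : D T = 0) (ht : D t = 0) (hQ : D Q = 0) (hP : D P = 0) (hS : D S = 0) :
    D (iy T t Q P S) = 0 := by
  simp [iy, Derivation.leibniz, Derivation.leibniz_pow, der_ial D ht hQ hP,
    der_iga D ht hQ hP, der_ip D ht hQ hP, der_iq D ht hQ hP, der_ix D hT ht hQ hP, hS, ht]

theorem der_iu (ht : D t = 0) (hQ : D Q = 0) (hP : D P = 0) (hS : D S = 0) :
    D (iu t Q P S) = 0 := by
  simp [iu, Derivation.leibniz, Derivation.leibniz_pow, der_ial D ht hQ hP,
    der_iga D ht hQ hP, der_ip D ht hQ hP, der_iq D ht hQ hP, der_ir D ht hQ hP, hS, ht]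

theorem der_iz (hT : D T = 0) (ht : D t = 0) (hQ : D Q = 0) (hP : D P = 0) (hS : D S = 0) :
    D (iz T t Q P S) = 0 := by
  have h2 : D (2 : B) = 0 := by exact_mod_cast D.map_natCast 2
  simp [iz, Derivation.leibniz, Derivation.leibniz_pow, der_ial D ht hQ hP,
    der_iga D ht hQ hP, der_ip D ht hQ hP, der_iq D ht hQ hP, der_ir D ht hQ hP,
    der_ix D hT ht hQ hP, hS, ht, h2]

end der

end Crest.Agent.R268.Comm
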