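import Crest.Agent.R268.CommB

/-! Row 268, S0410: coordinates of the localized ring. -/

set_option autoImplicit false

namespace Crest.Agent.R268.Comm

open MvPolynomial

variable (m : ℕ)

/-- the ring `ℂ[x₀,…,x₃₊ₘ]` -/
abbrev A := MvPolynomial (Fin (4 + m)) ℂ
/-- `ℂ[T]` -/
abbrev Po := Polynomial ℂ
/-- `ℂ(T)` -/
abbrev K := FractionRing (Polynomial ℂ)
/-- polynomials over `ℂ(T)` -/
abbrev L := MvPolynomial (Fin 3 ⊕ Fin m) K
/-- polynomials over `ℂ[T]` -/
abbrev P := MvPolynomial (Fin 3 ⊕ Fin m) Po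

instance : CharZero K := charZero_of_injective_algebraMap (IsFractionRing.injective (Polynomial ℂ) K)

noncomputable def xs (j : Fin 4) : A m := X (Fin.castAdd m j)
noncomputable def vs (i : Fin m) : A m := X (Fin.natAdd 4 i)

noncomputable def Fm : A m := Ff (xs m 0) (xs m 1) (xs m 2) (xs m 3)

noncomputable def Tn : L m := C (algebraMap (Polynomial ℂ) K Polynomial.X)
noncomputable def tn : L m := C (algebraMap (Polynomial ℂ) K Polynomial.X)⁻¹
noncomputable def Ln (j : Fin 3) : L m := X (Sum.inl j)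

theorem hTt : Tn m * tn m = 1 := by
  have h : algebraMap (Polynomial ℂ) K Polynomial.X ≠ 0 := by
    intro h
    exact Polynomial.X_ne_zero (IsFractionRing.injective (Polynomial ℂ) K (by rw [h, map_zero]))
  rw [Tn, tn, ← C_mul, mul_inv_cancel₀ h, C_1]

/-- inclusion of coefficients -/
noncomputable def incl : P m →+* L m := MvPolynomial.map (algebraMap (Polynomial ℂ) K)

theorem incl_inj : Function.Injective (incl m) :=
  MvPolynomial.map_injective _ (IsFractionRing.injective (Polynomial ℂ) K)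

/-- `Θ : ℂ[T][Q,P,S,v] → A` -/
noncomputable def Th : P m →+* A m :=
  eval₂Hom (Polynomial.aeval (R := ℂ) (Fm m) : Polynomial ℂ →+* A m)
    (Sum.elim ![q' (xs m 0) (xs m 1) (xs m 2) (xs m 3), p' (xs m 0) (xs m 1) (xs m 2) (xs m 3),
      s (xs m 0) (xs m 1) (xs m 2) (xs m 3)] (vs m))

/-- images of the four variables -/
noncomputable def img (j : Fin 4) : L m :=
  ![ix (Tn m) (tn m) (Ln m 0) (Ln m 1), iy (Tn m) (tn m) (Ln m 0) (Ln m 1) (Ln m 2),
    iz (Tn m) (tn m) (Ln m 0) (Ln m 1) (Ln m 2), iu (tn m) (Ln m 0) (Ln m 1) (Ln m 2)] j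

/-- `Ψ : A → ℂ(T)[Q,P,S,v]` -/
noncomputable def Ps : A m →ₐ[ℂ] L m :=
  aeval (Fin.addCases (img m) (fun i => X (Sum.inr i)))

theorem Ps_xs (j : Fin 4) : Ps m (xs m j) = img m j := by
  rw [Ps, xs, aeval_X, Fin.addCases_left]

theorem Ps_vs (i : Fin m) : Ps m (vs m i) = X (Sum.inr i) := by
  rw [Ps, vs, aeval_X, Fin.addCases_right]

theorem Ps_F : Ps m (Fm m) = Tn m := by
  have := map_F (Ps m : A m →+* L m) (xs m 0) (xs m 1) (xs m 2) (xs m 3)
  simp only [RingHom.coe_coe, Ps_xs] at this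
  rw [Fm, this]
  exact inv_F _ _ _ (hTt m)

theorem Ps_q' : Ps m (q' (xs m 0) (xs m 1) (xs m 2) (xs m 3)) = X (Sum.inl 0) := by
  have := map_q' (Ps m : A m →+* L m) (xs m 0) (xs m 1) (xs m 2) (xs m 3)
  simp only [RingHom.coe_coe, Ps_xs] at this
  rw [this]
  exact inv_q' _ _ _ (hTt m)

theorem Ps_p' : Ps m (p' (xs m 0) (xs m 1) (xs m 2) (xs m 3)) = X (Sum.inl 1) := by
  have := map_p' (Ps m : A m →+* L m) (xs m 0) (xs m 1) (xs m 2) (xs m 3)
  simp only [RingHom.coe_coe, Ps_xs] at this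
  rw [this]
  exact inv_p' _ _ _ (hTt m)

theorem Ps_s : Ps m (s (xs m 0) (xs m 1) (xs m 2) (xs m 3)) = X (Sum.inl 2) := by
  have := map_s (Ps m : A m →+* L m) (xs m 0) (xs m 1) (xs m 2) (xs m 3)
  simp only [RingHom.coe_coe, Ps_xs] at this
  rw [this]
  exact inv_s _ _ _ (hTt m)

theorem Th_C (c : Polynomial ℂ) : Th m (C c) = Polynomial.aeval (Fm m) c := by
  simp [Th]

theorem Ps_aeval (c : Polynomial ℂ) :
    Ps m (Polynomial.aeval (Fm m) c) = C (algebraMap (Polynomial ℂ) K c) := by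
  have h1 : Ps m (Polynomial.aeval (Fm m) c) = Polynomial.aeval (Tn m) c := by
    rw [← Ps_F, Polynomial.aeval_algHom_apply]
  rw [h1]
  clear h1
  induction c using Polynomial.induction_on' with
  | add a b ha hb => rw [map_add, map_add, C_add, ha, hb]
  | monomial n a => 
    rw [Polynomial.aeval_monomial, Tn, ← Polynomial.C_mul_X_pow_eq_monomial, map_mul, map_pow,
      C_mul, C_pow]
    congr 1

theorem Ps_Th (h : P m) : Ps m (Th m h) = incl m h := by
  have : (Ps m : A m →+* L m).comp (Th m) = incl m := by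
    apply MvPolynomial.ringHom_ext
    · intro c
      simp only [RingHom.comp_apply, RingHom.coe_coe, Th_C, Ps_aeval, incl, map_C]
    · intro i
      rcases i with i | i
      · simp only [RingHom.comp_apply, RingHom.coe_coe, Th, eval₂Hom_X', Sum.elim_inl, incl, map_X]
        fin_cases i
        · simpa using Ps_q' m
        · simpa using Ps_p' m
        · simpa using Ps_s m
      · simp only [RingHom.comp_apply, RingHom.coe_coe, Th, eval₂Hom_X', Sum.elim_inr, incl, map_X]
        exact Ps_vs m i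
  exact RingHom.congr_fun this h

theorem Th_q' : Th m (X (Sum.inl 0)) = q' (xs m 0) (xs m 1) (xs m 2) (xs m 3) := by
  simp [Th]

theorem Th_p' : Th m (X (Sum.inl 1)) = p' (xs m 0) (xs m 1) (xs m 2) (xs m 3) := by
  simp [Th]

theorem Th_s : Th m (X (Sum.inl 2)) = s (xs m 0) (xs m 1) (xs m 2) (xs m 3) := by
  simp [Th]

theorem Th_v (i : Fin m) : Th m (X (Sum.inr i)) = vs m i := by
  simp [Th]

theorem Th_T : Th m (C Polynomial.X) = Fm m := by
  rw [Th_C, Polynomial.aeval_X]

theorem Fm_ne : Fm m ≠ 0 := by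
  intro h
  have h1 := Ps_F m
  rw [h, map_zero] at h1
  have h2 := hTt m
  rw [← h1, zero_mul] at h2
  exact zero_ne_one h2

/-- elements which become polynomials in the new coordinates after multiplication by `F^n` -/
noncomputable def Good : Subalgebra ℂ (A m) where
  carrier := {f | ∃ (n : ℕ) (h : P m), Fm m ^ n * f = Th m h}
  mul_mem' := by
    rintro a b ⟨n, h, hn⟩ ⟨n', h', hn'⟩
    refine ⟨n + n', h * h', ?_⟩
    rw [map_mul, ← hn, ← hn']; ring
  add_mem' := by
    rintro a b ⟨n, h, hn⟩ ⟨n', h', hn'⟩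
    refine ⟨n + n', (C Polynomial.X) ^ n' * h + (C Polynomial.X) ^ n * h', ?_⟩
    rw [map_add, map_mul, map_mul, map_pow, map_pow, Th_T, ← hn, ← hn']; ring
  algebraMap_mem' := by
    intro r
    refine ⟨0, C (Polynomial.C r), ?_⟩
    rw [Th_C, Polynomial.aeval_C]; simp

theorem good_Th (h : P m) : Th m h ∈ Good m := ⟨0, h, by simp⟩

theorem good_of_mul {f : A m} (h : Fm m * f ∈ Good m) : f ∈ Good m := by
  obtain ⟨n, g, hg⟩ := h
  exact ⟨n + 1, g, by rw [← hg]; ring⟩

theorem good_num (n : ℕ) [n.AtLeastTwo] : (OfNat.ofNat n : A m) ∈ Good m := by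
  have := (Good m).natCast_mem n
  exact_mod_cast this

theorem good_r : r (xs m 0) (xs m 1) (xs m 2) (xs m 3) ∈ Good m := by
  apply good_of_mul
  rw [Fm, id1, ← Th_q', ← Th_p']
  have hQ := good_Th m (X (Sum.inl 0))
  have hP := good_Th m (X (Sum.inl 1))
  exact sub_mem (sub_mem (pow_mem hP 2) (pow_mem hQ 3)) (pow_mem hQ 2)

theorem good_q : q (xs m 0) (xs m 1) (xs m 2) ∈ Good m := by
  have h : q (xs m 0) (xs m 1) (xs m 2) = q' (xs m 0) (xs m 1) (xs m 2) (xs m 3)
      - r (xs m 0) (xs m 1) (xs m 2) (xs m 3) * (r (xs m 0) (xs m 1) (xs m 2) (xs m 3) + 2) := by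
    rw [q']; ring
  rw [h, ← Th_q']
  exact sub_mem (good_Th m _) (mul_mem (good_r m) (add_mem (good_r m) (good_num m 2)))

theorem good_p : p (xs m 0) (xs m 1) (xs m 2) (xs m 3) ∈ Good m := by
  have h : p (xs m 0) (xs m 1) (xs m 2) (xs m 3) = p' (xs m 0) (xs m 1) (xs m 2) (xs m 3)
      - r (xs m 0) (xs m 1) (xs m 2) (xs m 3) * (r (xs m 0) (xs m 1) (xs m 2) (xs m 3) + 1) *
        (r (xs m 0) (xs m 1) (xs m 2) (xs m 3) + 2) := by
    rw [p']; ring
  rw [h, ← Th_p']
  exact sub_mem (good_Th m _) (mul_mem (mul_mem (good_r m) (add_mem (good_r m) (one_mem _)))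
    (add_mem (good_r m) (good_num m 2)))

theorem good_al : al (xs m 0) (xs m 1) (xs m 2) (xs m 3) ∈ Good m := by
  rw [al]
  exact mul_mem (mul_mem (good_num m 2) (add_mem (good_r m) (one_mem _)))
    (add_mem (good_r m) (good_num m 2))

theorem good_ga : ga (xs m 0) (xs m 1) (xs m 2) (xs m 3) ∈ Good m := by
  rw [ga]
  exact mul_mem (add_mem (good_r m) (good_num m 2))
    (add_mem (add_mem (add_mem (mul_mem (good_num m 3) (good_q m))
      (mul_mem (good_num m 3) (pow_mem (good_r m) 2))) (mul_mem (good_num m 6) (good_r m)))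
      (good_num m 2))

theorem good_F : Fm m ∈ Good m := by
  rw [← Th_T]; exact good_Th m _

theorem good_x0 : xs m 0 ∈ Good m := by
  rw [id_x (xs m 0) (xs m 1) (xs m 2) (xs m 3)]
  exact add_mem (sub_mem (good_F m) (mul_mem (good_al m) (good_p m))) (mul_mem (good_ga m) (good_q m))

theorem good_s : s (xs m 0) (xs m 1) (xs m 2) (xs m 3) ∈ Good m := by
  rw [← Th_s]; exact good_Th m _

theorem good_B : al (xs m 0) (xs m 1) (xs m 2) (xs m 3) * q (xs m 0) (xs m 1) (xs m 2) *
    (q (xs m 0) (xs m 1) (xs m 2) + 1) - ga (xs m 0) (xs m 1) (xs m 2) (xs m 3) *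
      p (xs m 0) (xs m 1) (xs m 2) (xs m 3) ∈ Good m :=
  sub_mem (mul_mem (mul_mem (good_al m) (good_q m)) (add_mem (good_q m) (one_mem _)))
    (mul_mem (good_ga m) (good_p m))

theorem good_x1 : xs m 1 ∈ Good m := by
  apply good_of_mul
  rw [Fm, id2, add_sub_assoc]
  exact add_mem (mul_mem (good_x0 m) (good_s m)) (good_B m)

theorem good_x3 : xs m 3 ∈ Good m := by
  apply good_of_mul
  rw [Fm, id3]
  exact add_mem (add_mem (mul_mem (neg_mem (good_q m)) (good_s m)) (good_p m))
    (mul_mem (good_al m) (good_r m))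

theorem good_x2 : xs m 2 ∈ Good m := by
  apply good_of_mul
  apply good_of_mul
  have : Fm m * (Fm m * xs m 2) = Fm m ^ 2 * xs m 2 := by ring
  rw [this, Fm, id4]
  refine add_mem (add_mem (sub_mem (mul_mem (neg_mem (good_x0 m)) (pow_mem (good_s m) 2))
    (mul_mem (mul_mem (good_num m 2) (good_B m)) (good_s m)))
    (mul_mem (add_mem (good_q m) (one_mem _)) ?_)) (mul_mem ?_ (good_r m))
  · exact sub_mem (add_mem (good_x0 m) (mul_mem (mul_mem (good_num m 2) (good_al m)) (good_p m)))
      (mul_mem (mul_mem (good_num m 2) (good_ga m)) (good_q m))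
  · exact sub_mem (mul_mem (pow_mem (good_al m) 2) (add_mem (good_q m) (one_mem _)))
      (pow_mem (good_ga m) 2)

theorem good_all (f : A m) : ∃ (n : ℕ) (h : P m), Fm m ^ n * f = Th m h := by
  suffices h : f ∈ Good m from h
  induction f using MvPolynomial.induction_on with
  | C a => exact (Good m).algebraMap_mem a
  | add p q hp hq => exact add_mem hp hq
  | mul_X p i hp =>
    refine mul_mem hp ?_
    induction i using Fin.addCases with
    | left j =>
      fin_cases j
      · exact good_x0 m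
      · exact good_x1 m
      · exact good_x2 m
      · exact good_x3 m
    | right j =>
      have := good_Th m (X (Sum.inr j))
      rw [Th_v] at this
      exact this

theorem Ps_inj : Function.Injective (Ps m) := by
  rw [injective_iff_map_eq_zero]
  intro f hf
  obtain ⟨n, h, hn⟩ := good_all m f
  have h1 : incl m h = 0 := by rw [← Ps_Th, ← hn, map_mul, hf, mul_zero]
  have h2 : h = 0 := incl_inj m (by rw [h1, map_zero])
  rw [h2, map_zero] at hn
  rcases mul_eq_zero.1 hn with h3 | h3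
  · exact absurd h3 (pow_ne_zero n (Fm_ne m))
  · exact h3

theorem pderiv_Tn_pow (a : Fin 3 ⊕ Fin m) (n : ℕ) (f : L m) :
    pderiv a (Tn m ^ n * f) = Tn m ^ n * pderiv a f := by
  rw [Tn, ← C_pow, pderiv_C_mul]

theorem exists_lift (a : Fin 3 ⊕ Fin m) (f : A m) :
    ∃ (n : ℕ) (g : A m), Ps m g = Tn m ^ n * pderiv a (Ps m f) := by
  obtain ⟨n, h, hn⟩ := good_all m f
  refine ⟨n, Th m (pderiv a h), ?_⟩
  rw [Ps_Th, ← pderiv_Tn_pow, ← Ps_F, ← map_pow, ← map_mul, hn, Ps_Th, incl, pderiv_map]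

theorem intertwine (D : Derivation ℂ (A m) (A m)) (n : ℕ) (a : Fin 3 ⊕ Fin m)
    (h : ∀ i, Ps m (D (X i)) = Tn m ^ n * pderiv a (Ps m (X i))) (f : A m) :
    Ps m (D f) = Tn m ^ n * pderiv a (Ps m f) := by
  induction f using MvPolynomial.induction_on with
  | C r =>
    rw [← MvPolynomial.algebraMap_eq, Derivation.map_algebraMap, AlgHom.commutes, map_zero]
    have : (algebraMap ℂ (L m)) r = C (algebraMap ℂ K r) := rfl
    rw [this, pderiv_C, mul_zero]
  | add p q hp hq => rw [map_add, map_add, hp, hq, map_add, map_add, mul_add]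
  | mul_X p i hp =>
    rw [Derivation.leibniz, map_add, smul_eq_mul, smul_eq_mul, map_mul, map_mul, hp, h i,
      map_mul, pderiv_mul]
    ring

theorem exists_D (a : Fin 3 ⊕ Fin m) :
    ∃ (n : ℕ) (D : Derivation ℂ (A m) (A m)), (∀ i, a = Sum.inr i → D = pderiv (Fin.natAdd 4 i)) ∧
      ∀ f, Ps m (D f) = Tn m ^ n * pderiv a (Ps m f) := by
  classical
  rcases a with a | a
  · choose n g hg using fun i : Fin (4 + m) => exists_lift m (Sum.inl a) (X i)
    refine ⟨∑ i, n i, mkDerivation ℂ (fun i => Fm m ^ ((∑ i, n i) - n i) * g i),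
      fun i hi => by simp at hi, ?_⟩
    apply intertwine
    intro i
    rw [mkDerivation_X, map_mul, hg, map_pow, Ps_F, ← mul_assoc, ← pow_add,
      Nat.sub_add_cancel (Finset.single_le_sum (fun _ _ => Nat.zero_le _) (Finset.mem_univ i))]
  · refine ⟨0, pderiv (Fin.natAdd 4 a), fun i hi => by rw [Sum.inr.inj hi], ?_⟩
    apply intertwine
    intro i
    rw [pow_zero, one_mul]
    induction i using Fin.addCases with
    | left j =>
      have h1 : pderiv (R := ℂ) (Fin.natAdd 4 a) (X (Fin.castAdd m j)) = 0 := by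
        apply pderiv_X_of_ne
        intro h
        have := congrArg Fin.val h
        simp at this
        omega
      rw [h1, map_zero]
      have hT : pderiv (Sum.inr a) (Tn m) = 0 := pderiv_C
      have ht : pderiv (Sum.inr a) (tn m) = 0 := pderiv_C
      have hL : ∀ j, pderiv (Sum.inr a) (Ln m j) = 0 := fun j => pderiv_X_of_ne (by simp)
      change 0 = pderiv (Sum.inr a) (Ps m (xs m j))
      rw [Ps_xs]
      fin_cases j
      · exact (der_ix _ hT ht (hL 0) (hL 1)).symm
      · exact (der_iy _ hT ht (hL 0) (hL 1) (hL 2)).symm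
      · exact (der_iz _ hT ht (hL 0) (hL 1) (hL 2)).symm
      · exact (der_iu _ ht (hL 0) (hL 1) (hL 2)).symm
    | right j =>
      have h2 : Ps m (X (Fin.natAdd 4 j)) = X (Sum.inr j) := Ps_vs m j
      rw [h2, pderiv_X, pderiv_X]
      by_cases hj : a = j
      · subst hj; simp
      · rw [Pi.single_eq_of_ne, Pi.single_eq_of_ne, map_zero]
        · intro h; exact hj (Sum.inr.inj h).symm
        · intro h
          apply hj
          have := congrArg Fin.val h
          simp at this
          exact Fin.ext this.symm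

end Crest.Agent.R268.Comm
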