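import Mathlib

/-!
# Row 268, S0409 and S0410: the polynomial `F` with a critical point on the fibre `F = 0`

`f = y^2 - x z`, `φ = 1 - f`, `g = x u - φ y`, `h = x u^2 - 2 φ y u + φ^2 z`, `x h = g^2 - f φ^2`,
`e = 2 + h`, `t = 1 + h`, `a = h e`, `F = x + 2 e t g + φ e (2 - 3 φ + 3 a)`,
`h F = (g + a t)^2 - (f + a) (φ - a)^2`.
-/

set_option autoImplicit false

namespace Crest.Agent.R268.Cr

section fns
variable {R : Type*} [CommRing R]

/-- `f = y^2 - x z` -/
def ff (x y z : R) : R := y ^ 2 - x * z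
/-- `g = x u - φ y` -/
def gg (x y z u : R) : R := x * u - (1 - ff x y z) * y
/-- `h = x u^2 - 2 φ y u + φ^2 z` -/
def hh (x y z u : R) : R := x * u ^ 2 - 2 * (1 - ff x y z) * y * u + (1 - ff x y z) ^ 2 * z
/-- `a = h (2 + h)` -/
def aa (h : R) : R := h * (2 + h)
/-- `w = e (2 - 3 φ + 3 a)` -/
def ww (f h : R) : R := (2 + h) * (2 - 3 * (1 - f) + 3 * (h * (2 + h)))
/-- `G = 2 e t g` -/
def GG (g h : R) : R := 2 * (2 + h) * (1 + h) * g
/-- `β = 2 G w + φ w^2 + 4 e^2 t^2 f φ` -/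
def be (f g h : R) : R := 2 * GG g h * ww f h + (1 - f) * ww f h ^ 2
  + 4 * (2 + h) ^ 2 * (1 + h) ^ 2 * f * (1 - f)
/-- `α = x + 2 G + 2 φ w + 4 e^2 t^2 h` -/
def al (x f g h : R) : R := x + 2 * GG g h + 2 * (1 - f) * ww f h
  + 4 * (2 + h) ^ 2 * (1 + h) ^ 2 * h
/-- `ζ = β^2 h - f (α^2 x + 2 α β φ)` -/
def ze (x f g h : R) : R := be f g h ^ 2 * h
  - f * (al x f g h ^ 2 * x + 2 * al x f g h * be f g h * (1 - f))
/-- `F` as a function of `x, f, g, h` -/
def F0 (x f g h : R) : R := x + GG g h + (1 - f) * ww f h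
/-- The polynomial `F`. -/
def FF (x y z u : R) : R := F0 x (ff x y z) (gg x y z u) (hh x y z u)
/-- `f1 = f + a` -/
def f1 (x y z u : R) : R := ff x y z + aa (hh x y z u)
/-- `g1 = g + a t` -/
def g1 (x y z u : R) : R := gg x y z u + aa (hh x y z u) * (1 + hh x y z u)
/-- `σ = α y + β u` -/
def sg (x y z u : R) : R := al x (ff x y z) (gg x y z u) (hh x y z u) * y
  + be (ff x y z) (gg x y z u) (hh x y z u) * u
/-- `P(f,g) = g^2 - f (1-f)^2` -/
def PP (f g : R) : R := g ^ 2 - f * (1 - f) ^ 2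

variable (x y z u : R)

theorem x_hh : x * hh x y z u = PP (ff x y z) (gg x y z u) := by
  simp only [PP, hh, gg, ff]; ring

/-- the formal identity behind `h F = P(f1,g1)` -/
theorem PP_shift (f g h : R) : PP (f + aa h) (g + aa h * (1 + h)) =
    PP f g + h * (GG g h + (1 - f) * ww f h) := by
  simp only [PP, GG, ww, aa]; ring

theorem hh_FF : hh x y z u * FF x y z u = PP (f1 x y z u) (g1 x y z u) := by
  have h1 := x_hh x y z u
  have h2 := PP_shift (ff x y z) (gg x y z u) (hh x y z u)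
  simp only [f1, g1, FF, F0]
  linear_combination h1 - h2

/-- `α x + β φ = F^2` as soon as `x h = P(f,g)` -/
theorem al_be (x f g h : R) (hx : x * h = PP f g) :
    al x f g h * x + be f g h * (1 - f) = F0 x f g h ^ 2 := by
  simp only [PP] at hx
  simp only [al, be, F0, GG, ww]
  linear_combination (4 * (2 + h) ^ 2 * (1 + h) ^ 2) * hx

theorem F_y : FF x y z u ^ 2 * y = x * sg x y z u
    - be (ff x y z) (gg x y z u) (hh x y z u) * gg x y z u := by
  have h1 := al_be x (ff x y z) (gg x y z u) (hh x y z u) (x_hh x y z u)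
  have h2 : gg x y z u = x * u - (1 - ff x y z) * y := rfl
  simp only [FF, sg]
  rw [← h1]
  generalize al x (ff x y z) (gg x y z u) (hh x y z u) = α at *
  generalize be (ff x y z) (gg x y z u) (hh x y z u) = β at *
  rw [h2]; ring

theorem F_u : FF x y z u ^ 2 * u = (1 - ff x y z) * sg x y z u
    + al x (ff x y z) (gg x y z u) (hh x y z u) * gg x y z u := by
  have h1 := al_be x (ff x y z) (gg x y z u) (hh x y z u) (x_hh x y z u)
  have h2 : gg x y z u = x * u - (1 - ff x y z) * y := rfl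
  simp only [FF, sg]
  rw [← h1]
  generalize al x (ff x y z) (gg x y z u) (hh x y z u) = α at *
  generalize be (ff x y z) (gg x y z u) (hh x y z u) = β at *
  rw [h2]; ring

theorem F_z : FF x y z u ^ 4 * z = x * sg x y z u ^ 2
    - 2 * be (ff x y z) (gg x y z u) (hh x y z u) * gg x y z u * sg x y z u
    + ze x (ff x y z) (gg x y z u) (hh x y z u) := by
  have h1 := al_be x (ff x y z) (gg x y z u) (hh x y z u) (x_hh x y z u)
  have h2 : gg x y z u = x * u - (1 - ff x y z) * y := rfl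
  have h3 : hh x y z u = x * u ^ 2 - 2 * (1 - ff x y z) * y * u + (1 - ff x y z) ^ 2 * z := rfl
  have h4 : ff x y z = y ^ 2 - x * z := rfl
  have h5 : F0 x (ff x y z) (gg x y z u) (hh x y z u) ^ 4 =
    (F0 x (ff x y z) (gg x y z u) (hh x y z u) ^ 2) ^ 2 := by ring
  simp only [FF, sg, ze]
  rw [h5, ← h1]
  generalize al x (ff x y z) (gg x y z u) (hh x y z u) = α at *
  generalize be (ff x y z) (gg x y z u) (hh x y z u) = β at *
  rw [h2, h3]
  generalize ff x y z = f at *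
  subst h4
  ring

/-! ### The inverse -/

/-- `h` from `(f1, g1, F⁻¹)` -/
def hI (f1 g1 : R) : R := PP f1 g1
/-- `f` from `(f1,g1)` -/
def fI (f1 g1 : R) : R := f1 - aa (hI f1 g1)
/-- `g` from `(f1,g1)` -/
def gI (f1 g1 : R) : R := g1 - aa (hI f1 g1) * (1 + hI f1 g1)
/-- `x` from `(f1,g1)` -/
def xI (f1 g1 : R) : R := 1 - GG (gI f1 g1) (hI f1 g1) - (1 - fI f1 g1) * ww (fI f1 g1) (hI f1 g1)
/-- `α` from `(f1,g1)` -/
def alI (f1 g1 : R) : R := al (xI f1 g1) (fI f1 g1) (gI f1 g1) (hI f1 g1)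
/-- `β` from `(f1,g1)` -/
def beI (f1 g1 : R) : R := be (fI f1 g1) (gI f1 g1) (hI f1 g1)
/-- `y` from `(f1,g1,σ)` -/
def yI (f1 g1 s : R) : R := xI f1 g1 * s - beI f1 g1 * gI f1 g1
/-- `u` from `(f1,g1,σ)` -/
def uI (f1 g1 s : R) : R := (1 - fI f1 g1) * s + alI f1 g1 * gI f1 g1
/-- `z` from `(f1,g1,σ)` -/
def zI (f1 g1 s : R) : R := xI f1 g1 * s ^ 2 - 2 * beI f1 g1 * gI f1 g1 * s
  + ze (xI f1 g1) (fI f1 g1) (gI f1 g1) (hI f1 g1)

section inv
variable (f1 g1 s : R)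

theorem xI_hI : xI f1 g1 * hI f1 g1 = PP (fI f1 g1) (gI f1 g1) := by
  have h := PP_shift (fI f1 g1) (gI f1 g1) (hI f1 g1)
  have h1 : fI f1 g1 + aa (hI f1 g1) = f1 := by simp [fI]
  have h2 : gI f1 g1 + aa (hI f1 g1) * (1 + hI f1 g1) = g1 := by simp [gI]
  rw [h1, h2] at h
  have h3 : PP f1 g1 = hI f1 g1 := rfl
  rw [h3] at h
  simp only [xI]
  linear_combination h

theorem F0I : F0 (xI f1 g1) (fI f1 g1) (gI f1 g1) (hI f1 g1) = 1 := by
  simp only [F0, xI]; ring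

theorem al_beI : alI f1 g1 * xI f1 g1 + beI f1 g1 * (1 - fI f1 g1) = 1 := by
  have h := al_be (xI f1 g1) (fI f1 g1) (gI f1 g1) (hI f1 g1) (xI_hI f1 g1)
  rw [F0I] at h
  simpa [alI, beI] using h

theorem ffI : ff (xI f1 g1) (yI f1 g1 s) (zI f1 g1 s) = fI f1 g1 := by
  have h1 := xI_hI f1 g1
  have h2 := al_beI f1 g1
  simp only [ff, yI, zI, ze]
  change _ - _ * (_ - _ + (beI f1 g1 ^ 2 * hI f1 g1 - fI f1 g1 * (alI f1 g1 ^ 2 * xI f1 g1 +
    2 * alI f1 g1 * beI f1 g1 * (1 - fI f1 g1)))) = _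
  simp only [PP] at h1
  generalize xI f1 g1 = x at *
  generalize hI f1 g1 = h at *
  generalize fI f1 g1 = f at *
  generalize gI f1 g1 = g at *
  generalize alI f1 g1 = α at *
  generalize beI f1 g1 = β at *
  linear_combination (-β ^ 2) * h1 + f * (α * x + β * (1 - f) + 1) * h2

theorem ggI : gg (xI f1 g1) (yI f1 g1 s) (zI f1 g1 s) (uI f1 g1 s) = gI f1 g1 := by
  have h2 := al_beI f1 g1
  rw [gg, ffI]
  simp only [yI, uI]
  linear_combination gI f1 g1 * h2

theorem hhI : hh (xI f1 g1) (yI f1 g1 s) (zI f1 g1 s) (uI f1 g1 s) = hI f1 g1 := by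
  have h1 := xI_hI f1 g1
  have h2 := al_beI f1 g1
  rw [hh, ffI]
  simp only [yI, uI, zI, ze]
  change _ - _ + _ * (_ - _ + (beI f1 g1 ^ 2 * hI f1 g1 - fI f1 g1 * (alI f1 g1 ^ 2 * xI f1 g1 +
    2 * alI f1 g1 * beI f1 g1 * (1 - fI f1 g1)))) = _
  simp only [PP] at h1
  generalize xI f1 g1 = x at *
  generalize hI f1 g1 = h at *
  generalize fI f1 g1 = f at *
  generalize gI f1 g1 = g at *
  generalize alI f1 g1 = α at *
  generalize beI f1 g1 = β at *
  linear_combination (-(α ^ 2 * x + 2 * α * β * (1 - f))) * h1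
    + h * (α * x + β * (1 - f) + 1) * h2

theorem FFI : FF (xI f1 g1) (yI f1 g1 s) (zI f1 g1 s) (uI f1 g1 s) = 1 := by
  simp only [FF, ffI, ggI, hhI, F0I]

theorem f1I : Cr.f1 (xI f1 g1) (yI f1 g1 s) (zI f1 g1 s) (uI f1 g1 s) = f1 := by
  simp only [Cr.f1, ffI, hhI, fI]; ring

theorem g1I : Cr.g1 (xI f1 g1) (yI f1 g1 s) (zI f1 g1 s) (uI f1 g1 s) = g1 := by
  simp only [Cr.g1, ggI, hhI, gI]; ring

theorem sgI : sg (xI f1 g1) (yI f1 g1 s) (zI f1 g1 s) (uI f1 g1 s) = s := by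
  have h2 := al_beI f1 g1
  simp only [sg, ffI, ggI, hhI]
  change alI f1 g1 * _ + beI f1 g1 * _ = _
  simp only [yI, uI]
  linear_combination s * h2

end inv

section inv'
variable {x y z u : R} (hF : FF x y z u = 1)
include hF

theorem hI_eq : hI (f1 x y z u) (g1 x y z u) = hh x y z u := by
  have h := hh_FF x y z u
  rw [hF, mul_one] at h
  exact h.symm

theorem fI_eq : fI (f1 x y z u) (g1 x y z u) = ff x y z := by
  simp only [fI, hI_eq hF]; simp [f1]

theorem gI_eq : gI (f1 x y z u) (g1 x y z u) = gg x y z u := by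
  simp only [gI, hI_eq hF]; simp [g1]

theorem xI_eq : xI (f1 x y z u) (g1 x y z u) = x := by
  simp only [xI, hI_eq hF, fI_eq hF, gI_eq hF]
  simp only [FF, F0] at hF
  linear_combination -hF

theorem yI_eq : yI (f1 x y z u) (g1 x y z u) (sg x y z u) = y := by
  have h := F_y x y z u
  rw [hF] at h
  simp only [yI, beI, xI_eq hF, hI_eq hF, fI_eq hF, gI_eq hF]
  linear_combination -h

theorem uI_eq : uI (f1 x y z u) (g1 x y z u) (sg x y z u) = u := by
  have h := F_u x y z u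
  rw [hF] at h
  simp only [uI, alI, xI_eq hF, hI_eq hF, fI_eq hF, gI_eq hF]
  linear_combination -h

theorem zI_eq : zI (f1 x y z u) (g1 x y z u) (sg x y z u) = z := by
  have h := F_z x y z u
  rw [hF] at h
  simp only [zI, beI, xI_eq hF, hI_eq hF, fI_eq hF, gI_eq hF]
  linear_combination -h

end inv'

end fns

end Crest.Agent.R268.Cr
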