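import Mathlib

/-!
# Row 268: a polynomial with a critical point is not a coordinate
-/

set_option autoImplicit false

namespace Crest.Agent.R268.Cr

open MvPolynomial

theorem sum_der_apply {σ ι : Type*} (s : Finset ι)
    (F : ι → Derivation ℂ (MvPolynomial σ ℂ) (MvPolynomial σ ℂ)) (q : MvPolynomial σ ℂ) :
    (∑ i ∈ s, F i) q = ∑ i ∈ s, F i q := by
  have h := map_sum (Derivation.coeFnAddMonoidHom (R := ℂ) (A := MvPolynomial σ ℂ)
    (M := MvPolynomial σ ℂ)) F s
  have h2 := congrFun h q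
  rw [Finset.sum_apply] at h2
  exact h2

/-- A derivation of a polynomial ring is `∑ D(X_i) ∂_i`, so it kills at `p` a polynomial with critical
point `p`. -/
theorem eval_der_of_crit {σ : Type*} [Fintype σ] [DecidableEq σ] (q : MvPolynomial σ ℂ) (p : σ → ℂ)
    (h : ∀ i, eval p (pderiv i q) = 0) (D : Derivation ℂ (MvPolynomial σ ℂ) (MvPolynomial σ ℂ)) :
    eval p (D q) = 0 := by
  have h2 : D q = ∑ i, pderiv i q * D (X i) := by
    have h3 : D = ∑ i, D (X i) • pderiv i := by
      apply MvPolynomial.derivation_ext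
      intro j
      simp [sum_der_apply, pderiv_X, Pi.single_apply]
    conv_lhs => rw [h3]
    simp [sum_der_apply, mul_comm]
  rw [h2, map_sum]
  refine Finset.sum_eq_zero fun i _ => ?_
  rw [map_mul, h i, zero_mul]

theorem no_coord_of_crit {σ : Type*} [Fintype σ] [DecidableEq σ] (q : MvPolynomial σ ℂ) (p : σ → ℂ)
    (h : ∀ i, eval p (pderiv i q) = 0) (τ : MvPolynomial σ ℂ ≃ₐ[ℂ] MvPolynomial σ ℂ) (j : σ)
    (hτ : τ q = X j) : False := by
  -- the derivation `τ⁻¹ ∘ ∂_j ∘ τ`
  let D : Derivation ℂ (MvPolynomial σ ℂ) (MvPolynomial σ ℂ) :=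
    Derivation.mk' ((τ.symm.toLinearMap ∘ₗ (pderiv j).toLinearMap) ∘ₗ τ.toLinearMap) (by
      intro a b
      simp [Derivation.leibniz, map_add, map_mul, smul_eq_mul])
  have h1 := eval_der_of_crit q p h D
  have h2 : D q = 1 := by
    change τ.symm (pderiv j (τ q)) = 1
    rw [hτ, pderiv_X_self, map_one]
  rw [h2, map_one] at h1
  exact one_ne_zero h1

end Crest.Agent.R268.Cr
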