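import Crest.Agent.R268.CritDefs
import Crest.Agent.R268.NoCoordCrit

/-!
# Row 268, S0409: the fibre `F = 1` is an affine space
-/

set_option autoImplicit false
set_option linter.unusedSimpArgs false

namespace Crest.Agent.R268.Cr

open MvPolynomial

section maps
variable {R S : Type*} [CommRing R] [CommRing S] (φ : R →+* S)

theorem map_ff (x y z : R) : φ (ff x y z) = ff (φ x) (φ y) (φ z) := by simp [map_ofNat, ff]
theorem map_gg (x y z u : R) : φ (gg x y z u) = gg (φ x) (φ y) (φ z) (φ u) := by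
  simp [map_ofNat, gg, map_ff]
theorem map_hh (x y z u : R) : φ (hh x y z u) = hh (φ x) (φ y) (φ z) (φ u) := by
  simp [map_ofNat, hh, map_ff]
theorem map_aa (h : R) : φ (aa h) = aa (φ h) := by simp [map_ofNat, aa]
theorem map_ww (f h : R) : φ (ww f h) = ww (φ f) (φ h) := by simp [map_ofNat, ww]
theorem map_GG (g h : R) : φ (GG g h) = GG (φ g) (φ h) := by simp [map_ofNat, GG]
theorem map_be (f g h : R) : φ (be f g h) = be (φ f) (φ g) (φ h) := by
  simp [map_ofNat, be, map_ww, map_GG]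
theorem map_al (x f g h : R) : φ (al x f g h) = al (φ x) (φ f) (φ g) (φ h) := by
  simp [map_ofNat, al, map_ww, map_GG]
theorem map_ze (x f g h : R) : φ (ze x f g h) = ze (φ x) (φ f) (φ g) (φ h) := by
  simp [map_ofNat, ze, map_be, map_al]
theorem map_F0 (x f g h : R) : φ (F0 x f g h) = F0 (φ x) (φ f) (φ g) (φ h) := by
  simp [map_ofNat, F0, map_ww, map_GG]
theorem map_FF (x y z u : R) : φ (FF x y z u) = FF (φ x) (φ y) (φ z) (φ u) := by
  simp [map_ofNat, FF, map_F0, map_ff, map_gg, map_hh]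
theorem map_f1 (x y z u : R) : φ (f1 x y z u) = f1 (φ x) (φ y) (φ z) (φ u) := by
  simp [map_ofNat, f1, map_aa, map_ff, map_hh]
theorem map_g1 (x y z u : R) : φ (g1 x y z u) = g1 (φ x) (φ y) (φ z) (φ u) := by
  simp [map_ofNat, g1, map_aa, map_gg, map_hh]
theorem map_sg (x y z u : R) : φ (sg x y z u) = sg (φ x) (φ y) (φ z) (φ u) := by
  simp [map_ofNat, sg, map_al, map_be, map_ff, map_gg, map_hh]
theorem map_PP (f g : R) : φ (PP f g) = PP (φ f) (φ g) := by simp [map_ofNat, PP]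
theorem map_hI (f g : R) : φ (hI f g) = hI (φ f) (φ g) := by simp [map_ofNat, hI, map_PP]
theorem map_fI (f g : R) : φ (fI f g) = fI (φ f) (φ g) := by simp [map_ofNat, fI, map_hI, map_aa]
theorem map_gI (f g : R) : φ (gI f g) = gI (φ f) (φ g) := by simp [map_ofNat, gI, map_hI, map_aa]
theorem map_xI (f g : R) : φ (xI f g) = xI (φ f) (φ g) := by
  simp [map_ofNat, xI, map_hI, map_fI, map_gI, map_GG, map_ww]
theorem map_alI (f g : R) : φ (alI f g) = alI (φ f) (φ g) := by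
  simp [map_ofNat, alI, map_al, map_hI, map_fI, map_gI, map_xI]
theorem map_beI (f g : R) : φ (beI f g) = beI (φ f) (φ g) := by
  simp [map_ofNat, beI, map_be, map_hI, map_fI, map_gI]
theorem map_yI (f g s : R) : φ (yI f g s) = yI (φ f) (φ g) (φ s) := by
  simp [map_ofNat, yI, map_beI, map_gI, map_xI]
theorem map_uI (f g s : R) : φ (uI f g s) = uI (φ f) (φ g) (φ s) := by
  simp [map_ofNat, uI, map_alI, map_fI, map_gI]
theorem map_zI (f g s : R) : φ (zI f g s) = zI (φ f) (φ g) (φ s) := by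
  simp [map_ofNat, zI, map_beI, map_gI, map_xI, map_ze, map_fI, map_hI]

end maps

/-- the polynomial ring in four variables `x,y,z,u = X 0, X 1, X 2, X 3` -/
abbrev P4 := MvPolynomial (Fin 4) ℂ
/-- the polynomial ring in three variables -/
abbrev P3 := MvPolynomial (Fin 3) ℂ

/-- The polynomial `F`. -/
noncomputable def FB : P4 := FF (X 0) (X 1) (X 2) (X 3)

/-- the map `B → ℂ[f1,g1,σ]` -/
noncomputable def fwd : P4 →ₐ[ℂ] P3 :=
  aeval ![xI (X 0) (X 1), yI (X 0) (X 1) (X 2), zI (X 0) (X 1) (X 2), uI (X 0) (X 1) (X 2)]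

theorem fwd_X0 : fwd (X 0) = xI (X 0) (X 1) := by simp [fwd]
theorem fwd_X1 : fwd (X 1) = yI (X 0) (X 1) (X 2) := by simp [fwd]
theorem fwd_X2 : fwd (X 2) = zI (X 0) (X 1) (X 2) := by simp [fwd]
theorem fwd_X3 : fwd (X 3) = uI (X 0) (X 1) (X 2) := by simp [fwd]

theorem fwd_FB : fwd FB = 1 := by
  have h := map_FF (fwd : P4 →+* P3) (X 0) (X 1) (X 2) (X 3)
  simp only [RingHom.coe_coe] at h
  rw [FB, h, fwd_X0, fwd_X1, fwd_X2, fwd_X3, FFI]

/-- the induced map on the quotient -/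
noncomputable def fwdQ : (P4 ⧸ Ideal.span {FB - 1}) →ₐ[ℂ] P3 :=
  Ideal.Quotient.liftₐ _ fwd (by
    intro a ha
    have hle : Ideal.span {FB - 1} ≤ RingHom.ker fwd := by
      rw [Ideal.span_singleton_le_iff_mem, RingHom.mem_ker, map_sub, fwd_FB, map_one, sub_self]
    exact hle ha)

theorem fwdQ_mk (p : P4) : fwdQ (Ideal.Quotient.mk _ p) = fwd p := rfl

/-- the quotient map -/
noncomputable def qm : P4 →+* (P4 ⧸ Ideal.span {FB - 1}) := Ideal.Quotient.mk _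

theorem fwdQ_qm (p : P4) : fwdQ (qm p) = fwd p := rfl

theorem qm_FF : FF (qm (X 0)) (qm (X 1)) (qm (X 2)) (qm (X 3)) = 1 := by
  rw [← map_FF qm]
  have : qm (FB - 1) = 0 := by
    rw [qm, Ideal.Quotient.eq_zero_iff_mem]
    exact Ideal.subset_span rfl
  rw [map_sub, map_one, sub_eq_zero] at this
  exact this

/-- the map `ℂ[f1,g1,σ] → B/(F-1)` -/
noncomputable def bwd : P3 →ₐ[ℂ] (P4 ⧸ Ideal.span {FB - 1}) :=
  aeval ![qm (f1 (X 0) (X 1) (X 2) (X 3)), qm (g1 (X 0) (X 1) (X 2) (X 3)),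
    qm (sg (X 0) (X 1) (X 2) (X 3))]

theorem bwd_X0 : bwd (X 0) = f1 (qm (X 0)) (qm (X 1)) (qm (X 2)) (qm (X 3)) := by
  simp [bwd, map_f1]
theorem bwd_X1 : bwd (X 1) = g1 (qm (X 0)) (qm (X 1)) (qm (X 2)) (qm (X 3)) := by
  simp [bwd, map_g1]
theorem bwd_X2 : bwd (X 2) = sg (qm (X 0)) (qm (X 1)) (qm (X 2)) (qm (X 3)) := by
  simp [bwd, map_sg]

theorem fib_one : Nonempty ((P4 ⧸ Ideal.span {FB - 1}) ≃ₐ[ℂ] P3) := by
  refine ⟨AlgEquiv.ofAlgHom fwdQ bwd ?_ ?_⟩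
  · ext i : 1
    rw [AlgHom.comp_apply, AlgHom.id_apply]
    fin_cases i
    · show fwdQ (bwd (X 0)) = X 0
      rw [bwd_X0, ← map_f1, fwdQ_qm]
      have h := map_f1 (fwd : P4 →+* P3) (X 0) (X 1) (X 2) (X 3)
      simp only [RingHom.coe_coe] at h
      rw [h, fwd_X0, fwd_X1, fwd_X2, fwd_X3, f1I]
    · show fwdQ (bwd (X 1)) = X 1
      rw [bwd_X1, ← map_g1, fwdQ_qm]
      have h := map_g1 (fwd : P4 →+* P3) (X 0) (X 1) (X 2) (X 3)
      simp only [RingHom.coe_coe] at h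
      rw [h, fwd_X0, fwd_X1, fwd_X2, fwd_X3, g1I]
    · show fwdQ (bwd (X 2)) = X 2
      rw [bwd_X2, ← map_sg, fwdQ_qm]
      have h := map_sg (fwd : P4 →+* P3) (X 0) (X 1) (X 2) (X 3)
      simp only [RingHom.coe_coe] at h
      rw [h, fwd_X0, fwd_X1, fwd_X2, fwd_X3, sgI]
  · apply Ideal.Quotient.algHom_ext
    ext i : 1
    rw [AlgHom.comp_apply, AlgHom.comp_apply, AlgHom.comp_apply, AlgHom.id_apply]
    change bwd (fwdQ (qm (X i))) = qm (X i)
    rw [fwdQ_qm]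
    fin_cases i
    · show bwd (fwd (X 0)) = qm (X 0)
      have h := map_xI (bwd : P3 →+* (P4 ⧸ Ideal.span {FB - 1})) (X 0) (X 1)
      simp only [RingHom.coe_coe] at h
      rw [fwd_X0, h, bwd_X0, bwd_X1, xI_eq qm_FF]
    · show bwd (fwd (X 1)) = qm (X 1)
      have h := map_yI (bwd : P3 →+* (P4 ⧸ Ideal.span {FB - 1})) (X 0) (X 1) (X 2)
      simp only [RingHom.coe_coe] at h
      rw [fwd_X1, h, bwd_X0, bwd_X1, bwd_X2, yI_eq qm_FF]
    · show bwd (fwd (X 2)) = qm (X 2)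
      have h := map_zI (bwd : P3 →+* (P4 ⧸ Ideal.span {FB - 1})) (X 0) (X 1) (X 2)
      simp only [RingHom.coe_coe] at h
      rw [fwd_X2, h, bwd_X0, bwd_X1, bwd_X2, zI_eq qm_FF]
    · show bwd (fwd (X 3)) = qm (X 3)
      have h := map_uI (bwd : P3 →+* (P4 ⧸ Ideal.span {FB - 1})) (X 0) (X 1) (X 2)
      simp only [RingHom.coe_coe] at h
      rw [fwd_X3, h, bwd_X0, bwd_X1, bwd_X2, uI_eq qm_FF]

/-! ### The critical point -/

/-- the critical point -/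
def pt : Fin 4 → ℂ := ![2, 0, -1, 0]

/-- first order jets at a point -/
structure Jet (p : Fin 4 → ℂ) (q : P4) (v : ℂ) (d : Fin 4 → ℂ) : Prop where
  val : eval p q = v
  der : ∀ i, eval p (pderiv i q) = d i

theorem Jet.mul {p : Fin 4 → ℂ} {q₁ q₂ : P4} {v₁ v₂ : ℂ} {d₁ d₂ : Fin 4 → ℂ}
    (h₁ : Jet p q₁ v₁ d₁) (h₂ : Jet p q₂ v₂ d₂) :
    Jet p (q₁ * q₂) (v₁ * v₂) (fun i => v₁ * d₂ i + v₂ * d₁ i) := by
  refine ⟨by rw [map_mul, h₁.val, h₂.val], fun i => ?_⟩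
  rw [Derivation.leibniz, smul_eq_mul, smul_eq_mul, map_add, map_mul, map_mul, h₁.val, h₂.val,
    h₁.der, h₂.der]

theorem Jet.add {p : Fin 4 → ℂ} {q₁ q₂ : P4} {v₁ v₂ : ℂ} {d₁ d₂ : Fin 4 → ℂ}
    (h₁ : Jet p q₁ v₁ d₁) (h₂ : Jet p q₂ v₂ d₂) :
    Jet p (q₁ + q₂) (v₁ + v₂) (fun i => d₁ i + d₂ i) := by
  refine ⟨by rw [map_add, h₁.val, h₂.val], fun i => ?_⟩
  rw [map_add, map_add, h₁.der, h₂.der]

theorem Jet.sub {p : Fin 4 → ℂ} {q₁ q₂ : P4} {v₁ v₂ : ℂ} {d₁ d₂ : Fin 4 → ℂ}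
    (h₁ : Jet p q₁ v₁ d₁) (h₂ : Jet p q₂ v₂ d₂) :
    Jet p (q₁ - q₂) (v₁ - v₂) (fun i => d₁ i - d₂ i) := by
  refine ⟨by rw [map_sub, h₁.val, h₂.val], fun i => ?_⟩
  rw [map_sub, map_sub, h₁.der, h₂.der]

theorem Jet.one (p : Fin 4 → ℂ) : Jet p (1 : P4) 1 (fun _ => 0) := ⟨by simp, by simp⟩

theorem Jet.nat (p : Fin 4 → ℂ) (n : ℕ) [n.AtLeastTwo] :
    Jet p (OfNat.ofNat n : P4) (OfNat.ofNat n) (fun _ => 0) := by
  have h : (OfNat.ofNat n : P4) = C (OfNat.ofNat n : ℂ) := by rw [map_ofNat]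
  refine ⟨by rw [h, eval_C], fun i => by rw [h, pderiv_C, map_zero]⟩

theorem Jet.X (p : Fin 4 → ℂ) (j : Fin 4) :
    Jet p (MvPolynomial.X j : P4) (p j) (fun i => if i = j then 1 else 0) := by
  refine ⟨by simp, fun i => ?_⟩
  rw [pderiv_X]
  by_cases h : i = j
  · subst h; simp
  · simp [h, Ne.symm h]

theorem Jet.congr {p : Fin 4 → ℂ} {q : P4} {v v' : ℂ} {d d' : Fin 4 → ℂ}
    (h : Jet p q v d) (hv : v = v') (hd : ∀ i, d i = d' i) : Jet p q v' d' := by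
  obtain rfl := hv
  obtain rfl : d = d' := funext hd
  exact h

theorem jet_f : Jet pt (ff (X 0) (X 1) (X 2)) 2 ![1, 0, -2, 0] := by
  have h := ((Jet.X pt 1).mul (Jet.X pt 1)).sub ((Jet.X pt 0).mul (Jet.X pt 2))
  rw [ff, pow_two]
  refine h.congr (by simp [pt]) (fun i => ?_)
  fin_cases i <;> simp [pt]

theorem jet_phi : Jet pt (1 - ff (X 0) (X 1) (X 2)) (-1) ![-1, 0, 2, 0] := by
  refine ((Jet.one pt).sub jet_f).congr (by norm_num) (fun i => ?_)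
  fin_cases i <;> simp

theorem jet_g : Jet pt (gg (X 0) (X 1) (X 2) (X 3)) 0 ![0, 1, 0, 2] := by
  have h := ((Jet.X pt 0).mul (Jet.X pt 3)).sub (jet_phi.mul (Jet.X pt 1))
  rw [gg]
  refine h.congr (by simp [pt]) (fun i => ?_)
  fin_cases i <;> simp [pt]

theorem jet_h : Jet pt (hh (X 0) (X 1) (X 2) (X 3)) (-1) ![-2, 0, 5, 0] := by
  have h := (((Jet.X pt 0).mul ((Jet.X pt 3).mul (Jet.X pt 3))).sub
    ((((Jet.nat pt 2).mul jet_phi).mul (Jet.X pt 1)).mul (Jet.X pt 3))).add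
    ((jet_phi.mul jet_phi).mul (Jet.X pt 2))
  rw [hh, pow_two, pow_two]
  refine h.congr (by simp [pt]) (fun i => ?_)
  fin_cases i <;> simp [pt] <;> norm_num

theorem jet_G : Jet pt (GG (gg (X 0) (X 1) (X 2) (X 3)) (hh (X 0) (X 1) (X 2) (X 3))) 0
    ![0, 0, 0, 0] := by
  have h := ((((Jet.nat pt 2).mul ((Jet.nat pt 2).add jet_h)).mul ((Jet.one pt).add jet_h))).mul
    jet_g
  rw [GG]
  refine h.congr (by simp) (fun i => ?_)
  fin_cases i <;> simp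

theorem jet_w : Jet pt (ww (ff (X 0) (X 1) (X 2)) (hh (X 0) (X 1) (X 2) (X 3))) 2
    ![-1, 0, 4, 0] := by
  have h := ((Jet.nat pt 2).add jet_h).mul ((((Jet.nat pt 2).sub ((Jet.nat pt 3).mul jet_phi))).add
    ((Jet.nat pt 3).mul (jet_h.mul ((Jet.nat pt 2).add jet_h))))
  rw [ww]
  refine h.congr (by norm_num) (fun i => ?_)
  fin_cases i <;> simp <;> norm_num

theorem jet_F : Jet pt FB 0 ![0, 0, 0, 0] := by
  have h := ((Jet.X pt 0).add jet_G).add (jet_phi.mul jet_w)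
  rw [FB, FF, F0]
  refine h.congr (by simp [pt]) (fun i => ?_)
  fin_cases i <;> simp <;> norm_num

theorem FB_crit (i : Fin 4) : eval pt (pderiv i FB) = 0 := by
  rw [jet_F.der i]; fin_cases i <;> rfl

theorem FB_val : eval pt FB = 0 := jet_F.val

end Crest.Agent.R268.Cr
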