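import Mathlib

/-!
# Row 268: the explicit polynomial

`f = q + g * (g*p + a*q)`, `g = 1 - a p^2 - q r` in `ℂ[a,p,q,r]`.
All auxiliary functions are defined in an arbitrary commutative ring.
-/

set_option autoImplicit false

namespace Crest.Agent.R268

section fns
variable {R : Type*} [CommRing R] (a p q r : R)

/-- `g = 1 - a p^2 - q r` -/
def gg : R := 1 - a * p ^ 2 - q * r
/-- `F = g p + a q` -/
def FF : R := gg a p q r * p + a * q
/-- `x = q + g F`, the main polynomial -/
def xx : R := q + gg a p q r * FF a p q r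
/-- `ρ = (1 - a g) p - a^2 q` -/
def rho : R := (1 - a * gg a p q r) * p - a ^ 2 * q
/-- `k = g^2 r - a (1 + a g) p` -/
def kk : R := gg a p q r ^ 2 * r - a * (1 + a * gg a p q r) * p
/-- `b = -(1 - a g) r - a^3 p` -/
def bb : R := -(1 - a * gg a p q r) * r - a ^ 3 * p
/-- `t = g k - x a^2` -/
def tt : R := gg a p q r * kk a p q r - xx a p q r * a ^ 2
/-- `c = ρ + t` -/
def cc : R := rho a p q r + tt a p q r

theorem id_F : FF a p q r = xx a p q r * a + gg a p q r * rho a p q r := by
  simp only [FF, xx, rho, gg]; ring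

theorem id_q : q = xx a p q r - gg a p q r * FF a p q r := by
  simp only [xx]; ring

theorem id_p : p = a * FF a p q r + rho a p q r := by
  simp only [FF, rho]; ring

theorem id_r : r = a ^ 2 * kk a p q r - (1 + a * gg a p q r) * bb a p q r := by
  simp only [kk, bb]; ring

theorem id_g : gg a p q r = 1 + rho a p q r * kk a p q r + xx a p q r * bb a p q r := by
  simp only [FF, xx, rho, kk, bb, gg]; ring

/-- `x t = F g c - F^2 - g^3 (g - 1)` -/
theorem id_xt : xx a p q r * tt a p q r =
    FF a p q r * gg a p q r * cc a p q r - FF a p q r ^ 2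
      - gg a p q r ^ 3 * (gg a p q r - 1) := by
  simp only [cc, tt, FF, xx, rho, kk, gg]; ring

theorem id_k : kk a p q r = a * (tt a p q r - rho a p q r) - gg a p q r ^ 2 * bb a p q r
    - gg a p q r * rho a p q r * a ^ 2 := by
  simp only [tt, xx, FF, rho, kk, bb, gg]; ring

/-- `ρ t = g (g-1) - x (g b + ρ a^2)` -/
theorem id_rt : rho a p q r * tt a p q r = gg a p q r * (gg a p q r - 1)
    - xx a p q r * (gg a p q r * bb a p q r + rho a p q r * a ^ 2) := by
  simp only [tt, xx, FF, rho, kk, bb, gg]; ring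

end fns

/-- the polynomial ring in four variables `a,p,q,r = X 0, X 1, X 2, X 3` -/
abbrev P4 := MvPolynomial (Fin 4) ℂ
/-- the polynomial ring in three variables -/
abbrev P3 := MvPolynomial (Fin 3) ℂ

/-- The example `f = q + g (g p + a q)`, `g = 1 - a p^2 - q r`. -/
noncomputable def fB : P4 :=
  xx (MvPolynomial.X 0) (MvPolynomial.X 1) (MvPolynomial.X 2) (MvPolynomial.X 3)

end Crest.Agent.R268
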