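import Crest.Agent.R268.Defs

/-! Row 268, T2: common lemmas for the fibres of `fB`. -/

set_option autoImplicit false

namespace Crest.Agent.R268

open MvPolynomial

section maps
variable {R R' : Type*} [CommRing R] [CommRing R'] (f : R →+* R') (a p q r : R)

theorem map_gg : f (gg a p q r) = gg (f a) (f p) (f q) (f r) := by simp [gg]
theorem map_FF : f (FF a p q r) = FF (f a) (f p) (f q) (f r) := by simp [FF, map_gg]
theorem map_xx : f (xx a p q r) = xx (f a) (f p) (f q) (f r) := by simp [xx, map_gg, map_FF]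
theorem map_rho : f (rho a p q r) = rho (f a) (f p) (f q) (f r) := by simp [rho, map_gg]
theorem map_kk : f (kk a p q r) = kk (f a) (f p) (f q) (f r) := by simp [kk, map_gg]
theorem map_bb : f (bb a p q r) = bb (f a) (f p) (f q) (f r) := by simp [bb, map_gg]
theorem map_tt : f (tt a p q r) = tt (f a) (f p) (f q) (f r) := by
  simp [tt, map_gg, map_kk, map_xx]
theorem map_cc : f (cc a p q r) = cc (f a) (f p) (f q) (f r) := by simp [cc, map_rho, map_tt]

end maps

section rec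
variable {R : Type*} [CommRing R] {x F g ρ t a k b : R}

/-- reconstruction of `g` -/
theorem gg_rec (H1 : F = x * a + g * ρ) (H2 : t = g * k - x * a ^ 2)
    (H3 : k = a * (t - ρ) - g ^ 2 * b - g * ρ * a ^ 2) (H4 : g = 1 + ρ * k + x * b) :
    gg a (a * F + ρ) (x - g * F) (a ^ 2 * k - (1 + a * g) * b) = g := by
  have h5 : a * (a * F + ρ) ^ 2 + (x - g * F) * (a ^ 2 * k - (1 + a * g) * b)
      = - ρ * k - x * b := by
    have e1 : F - x * a - g * ρ = 0 := by rw [H1]; ring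
    have e2 : x * a ^ 2 + t - g * k = 0 := by rw [H2]; ring
    have e3 : g ^ 2 * b - (a * (t - ρ) - g * ρ * a ^ 2 - k) = 0 := by
      linear_combination H3
    linear_combination (a * F + ρ) * e3 + a * (a * F + ρ) * e2 +
      (b * g + a ^ 2 * (a * F + ρ) - a * k) * e1
  rw [gg, sub_sub, h5]
  linear_combination -H4

theorem FF_rec (H1 : F = x * a + g * ρ)
    (hg : gg a (a * F + ρ) (x - g * F) (a ^ 2 * k - (1 + a * g) * b) = g) :
    FF a (a * F + ρ) (x - g * F) (a ^ 2 * k - (1 + a * g) * b) = F := by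
  rw [FF, hg]; linear_combination -H1

theorem xx_rec (H1 : F = x * a + g * ρ)
    (hg : gg a (a * F + ρ) (x - g * F) (a ^ 2 * k - (1 + a * g) * b) = g) :
    xx a (a * F + ρ) (x - g * F) (a ^ 2 * k - (1 + a * g) * b) = x := by
  rw [xx, FF_rec H1 hg, hg]; ring

theorem rho_rec (H1 : F = x * a + g * ρ)
    (hg : gg a (a * F + ρ) (x - g * F) (a ^ 2 * k - (1 + a * g) * b) = g) :
    rho a (a * F + ρ) (x - g * F) (a ^ 2 * k - (1 + a * g) * b) = ρ := by
  rw [rho, hg]; linear_combination a * H1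

theorem kk_rec (H1 : F = x * a + g * ρ) (H2 : t = g * k - x * a ^ 2)
    (H3 : k = a * (t - ρ) - g ^ 2 * b - g * ρ * a ^ 2)
    (hg : gg a (a * F + ρ) (x - g * F) (a ^ 2 * k - (1 + a * g) * b) = g) :
    kk a (a * F + ρ) (x - g * F) (a ^ 2 * k - (1 + a * g) * b) = k := by
  rw [kk, hg]
  linear_combination (1 + a * g) * (-H3) - a * (1 + a * g) * H2 - a ^ 2 * (1 + a * g) * H1

theorem bb_rec (H1 : F = x * a + g * ρ) (H2 : t = g * k - x * a ^ 2)
    (H3 : k = a * (t - ρ) - g ^ 2 * b - g * ρ * a ^ 2)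
    (hg : gg a (a * F + ρ) (x - g * F) (a ^ 2 * k - (1 + a * g) * b) = g) :
    bb a (a * F + ρ) (x - g * F) (a ^ 2 * k - (1 + a * g) * b) = b := by
  rw [bb, hg]
  linear_combination (a ^ 2) * (-H3) - a ^ 3 * H2 - a ^ 4 * H1

end rec

/-- The isomorphism `P4 / (fB - c) ≃ P3` from two substitutions. -/
theorem quot_equiv (c : ℂ) (v : Fin 4 → P3) (w : Fin 3 → P4)
    (h0 : xx (v 0) (v 1) (v 2) (v 3) = C c)
    (h1 : ∀ i, aeval v (w i) = X i)
    (h2 : ∀ i, Ideal.Quotient.mk (Ideal.span {fB - C c}) (aeval w (v i)) =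
      Ideal.Quotient.mk (Ideal.span {fB - C c}) (X i)) :
    Nonempty ((P4 ⧸ Ideal.span {fB - C c}) ≃ₐ[ℂ] P3) := by
  set I : Ideal P4 := Ideal.span {fB - C c} with hI
  have hker : ∀ z ∈ I, aeval v z = 0 := by
    intro z hz
    rw [hI, Ideal.mem_span_singleton] at hz
    obtain ⟨y, rfl⟩ := hz
    have : aeval v (fB - C c) = 0 := by
      rw [map_sub, fB]
      have := map_xx ((aeval v : P4 →ₐ[ℂ] P3) : P4 →+* P3) (X 0) (X 1) (X 2) (X 3)
      simp only [RingHom.coe_coe, aeval_X] at this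
      rw [this, h0]
      simp
    rw [map_mul, this, zero_mul]
  let φ : (P4 ⧸ I) →ₐ[ℂ] P3 := Ideal.Quotient.liftₐ I (aeval v) hker
  let ψ : P3 →ₐ[ℂ] (P4 ⧸ I) := (Ideal.Quotient.mkₐ ℂ I).comp (aeval w)
  have hφ : ∀ z, φ (Ideal.Quotient.mk I z) = aeval v z := fun z => rfl
  have hψ : ∀ z, ψ z = Ideal.Quotient.mk I (aeval w z) := fun z => rfl
  refine ⟨AlgEquiv.ofAlgHom φ ψ ?_ ?_⟩
  · apply MvPolynomial.algHom_ext
    intro i
    rw [AlgHom.comp_apply, hψ, hφ, aeval_X, h1 i, AlgHom.id_apply]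
  · apply Ideal.Quotient.algHom_ext
    apply MvPolynomial.algHom_ext
    intro i
    change ψ (φ (Ideal.Quotient.mk I (X i))) = Ideal.Quotient.mk I (X i)
    rw [hφ, hψ, aeval_X]
    exact h2 i

end Crest.Agent.R268
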