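import Crest.Agent.R268.FibCommon

/-! Row 268, T2a: the fibres `fB = c`, `c ≠ 0`, are affine 3-spaces with coordinates `F, g, c`. -/

set_option autoImplicit false

namespace Crest.Agent.R268

open MvPolynomial

section fns
variable {R : Type*} [CommRing R] (y F g c : R)

/-- `t = (F g c - F^2 - g^3 (g - 1)) / x` -/
def tN : R := y * (F * g * c - F ^ 2 - g ^ 3 * (g - 1))
/-- `ρ = c - t` -/
def rN : R := c - tN y F g c
/-- `a = (F - g ρ) / x` -/
def aN : R := y * (F - g * rN y F g c)
/-- `k = (2 t - c) a + g (ρ t - g (g - 1)) / x` -/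
def kN : R := (2 * tN y F g c - c) * aN y F g c +
  g * (y * (rN y F g c * tN y F g c - g * (g - 1)))
/-- `b = (g - 1 - ρ k) / x` -/
def bN : R := y * (g - 1 - rN y F g c * kN y F g c)

variable {y F g c} {x : R}

theorem relN1 (h : x * y = 1) : F = x * aN y F g c + g * rN y F g c := by
  rw [aN]; linear_combination (-(F - g * rN y F g c)) * h

theorem relN4 (h : x * y = 1) : g = 1 + rN y F g c * kN y F g c + x * bN y F g c := by
  rw [bN]; linear_combination (-(g - 1 - rN y F g c * kN y F g c)) * h

theorem cancelN (h : x * y = 1) {u v : R} (huv : x * u = x * v) : u = v := by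
  calc u = y * (x * u) := by rw [← mul_assoc, mul_comm y x, h, one_mul]
    _ = y * (x * v) := by rw [huv]
    _ = v := by rw [← mul_assoc, mul_comm y x, h, one_mul]

theorem xtN (h : x * y = 1) :
    x * tN y F g c = F * g * c - F ^ 2 - g ^ 3 * (g - 1) := by
  rw [tN, ← mul_assoc, h, one_mul]

theorem xkN (h : x * y = 1) : x * kN y F g c = (2 * tN y F g c - c) * (F - g * rN y F g c) +
    g * (rN y F g c * tN y F g c - g * (g - 1)) := by
  rw [kN, aN]
  linear_combination ((2 * tN y F g c - c) * (F - g * rN y F g c) +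
    g * (rN y F g c * tN y F g c - g * (g - 1))) * h

theorem relN2 (h : x * y = 1) :
    tN y F g c = g * kN y F g c - x * aN y F g c ^ 2 := by
  apply cancelN h
  have h1 : x * aN y F g c = F - g * rN y F g c := by
    linear_combination -(relN1 (F := F) (g := g) (c := c) h)
  have h2 := xkN (F := F) (g := g) (c := c) h
  have h3 := xtN (F := F) (g := g) (c := c) h
  have h4 : rN y F g c = c - tN y F g c := rfl
  have h5 : x * (x * aN y F g c ^ 2) = (x * aN y F g c) ^ 2 := by ring
  rw [mul_sub, h5, h1, mul_left_comm, h2, h3, h4]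
  ring

theorem relN3 (h : x * y = 1) : kN y F g c = aN y F g c * (tN y F g c - rN y F g c) -
    g ^ 2 * bN y F g c - g * rN y F g c * aN y F g c ^ 2 := by
  apply cancelN h
  have h1 : x * aN y F g c = F - g * rN y F g c := by
    linear_combination -(relN1 (F := F) (g := g) (c := c) h)
  have h2 := xkN (F := F) (g := g) (c := c) h
  have h6 := relN2 (F := F) (g := g) (c := c) h
  have h7 : x * bN y F g c = g - 1 - rN y F g c * kN y F g c := by
    linear_combination -(relN4 (F := F) (g := g) (c := c) h)
  have h4 : c = rN y F g c + tN y F g c := by rw [rN]; ring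
  have h8 : x * aN y F g c ^ 2 = g * kN y F g c - tN y F g c := by
    linear_combination h6
  rw [h2]
  have h9 : x * (aN y F g c * (tN y F g c - rN y F g c) -
    g ^ 2 * bN y F g c - g * rN y F g c * aN y F g c ^ 2) =
    (x * aN y F g c) * (tN y F g c - rN y F g c) - g ^ 2 * (x * bN y F g c) -
      g * rN y F g c * (x * aN y F g c ^ 2) := by ring
  rw [h9, h1, h7, h8]
  generalize rN y F g c = ρ at *
  generalize tN y F g c = t at *
  generalize kN y F g c = k at *
  subst h4
  ring

end fns

section maps
variable {R R' : Type*} [CommRing R] [CommRing R'] (f : R →+* R') (y F g c : R)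

theorem map_tN : f (tN y F g c) = tN (f y) (f F) (f g) (f c) := by simp [tN]
theorem map_rN : f (rN y F g c) = rN (f y) (f F) (f g) (f c) := by simp [rN, map_tN]
theorem map_aN : f (aN y F g c) = aN (f y) (f F) (f g) (f c) := by simp [aN, map_rN]
theorem map_kN : f (kN y F g c) = kN (f y) (f F) (f g) (f c) := by
  simp only [kN, map_add, map_mul, map_sub, map_one, map_ofNat, map_rN, map_tN, map_aN]
theorem map_bN : f (bN y F g c) = bN (f y) (f F) (f g) (f c) := by
  simp [bN, map_rN, map_kN]

end maps

theorem fib_ne (c : ℂ) (hc : c ≠ 0) :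
    Nonempty ((P4 ⧸ Ideal.span {fB - C c}) ≃ₐ[ℂ] P3) := by
  have hxy : (C c : P3) * C c⁻¹ = 1 := by rw [← C_mul, mul_inv_cancel₀ hc, C_1]
  set y : P3 := C c⁻¹ with hy
  set F : P3 := X 0 with hF
  set g : P3 := X 1 with hg
  set e : P3 := X 2 with he
  have H1 := relN1 (F := F) (g := g) (c := e) hxy
  have H2 := relN2 (F := F) (g := g) (c := e) hxy
  have H3 := relN3 (F := F) (g := g) (c := e) hxy
  have H4 := relN4 (F := F) (g := g) (c := e) hxy
  have hgg := gg_rec H1 H2 H3 H4
  refine quot_equiv c
    ![aN y F g e, aN y F g e * F + rN y F g e, C c - g * F,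
      aN y F g e ^ 2 * kN y F g e - (1 + aN y F g e * g) * bN y F g e]
    ![FF (X 0) (X 1) (X 2) (X 3), gg (X 0) (X 1) (X 2) (X 3), cc (X 0) (X 1) (X 2) (X 3)]
    ?_ ?_ ?_
  · exact xx_rec H1 hgg
  · intro i
    fin_cases i
    · change aeval _ (FF (X 0) (X 1) (X 2) (X 3) : P4) = F
      have := map_FF ((aeval ![aN y F g e, aN y F g e * F + rN y F g e, C c - g * F,
        aN y F g e ^ 2 * kN y F g e - (1 + aN y F g e * g) * bN y F g e] :
        P4 →ₐ[ℂ] P3) : P4 →+* P3) (X 0) (X 1) (X 2) (X 3)
      simp only [RingHom.coe_coe, aeval_X] at this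
      exact this.trans (FF_rec H1 hgg)
    · change aeval _ (gg (X 0) (X 1) (X 2) (X 3) : P4) = g
      have := map_gg ((aeval ![aN y F g e, aN y F g e * F + rN y F g e, C c - g * F,
        aN y F g e ^ 2 * kN y F g e - (1 + aN y F g e * g) * bN y F g e] :
        P4 →ₐ[ℂ] P3) : P4 →+* P3) (X 0) (X 1) (X 2) (X 3)
      simp only [RingHom.coe_coe, aeval_X] at this
      exact this.trans hgg
    · change aeval _ (cc (X 0) (X 1) (X 2) (X 3) : P4) = e
      have := map_cc ((aeval ![aN y F g e, aN y F g e * F + rN y F g e, C c - g * F,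
        aN y F g e ^ 2 * kN y F g e - (1 + aN y F g e * g) * bN y F g e] :
        P4 →ₐ[ℂ] P3) : P4 →+* P3) (X 0) (X 1) (X 2) (X 3)
      simp only [RingHom.coe_coe, aeval_X] at this
      refine this.trans ?_
      change cc (aN y F g e) (aN y F g e * F + rN y F g e) (C c - g * F)
        (aN y F g e ^ 2 * kN y F g e - (1 + aN y F g e * g) * bN y F g e) = e
      rw [cc, tt, rho_rec H1 hgg, hgg, kk_rec H1 H2 H3 hgg, xx_rec H1 hgg, ← H2, rN]
      ring
  · -- the other composition
    set I : Ideal P4 := Ideal.span {fB - C c} with hI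
    let π : P4 →+* (P4 ⧸ I) := Ideal.Quotient.mk I
    let W : Fin 3 → P4 :=
      ![FF (X 0) (X 1) (X 2) (X 3), gg (X 0) (X 1) (X 2) (X 3), cc (X 0) (X 1) (X 2) (X 3)]
    let Ψ : P3 →+* (P4 ⧸ I) := π.comp ((aeval W : P3 →ₐ[ℂ] P4) : P3 →+* P4)
    -- elements of the quotient
    let A := π (X 0)
    let P := π (X 1)
    let Q := π (X 2)
    let S := π (X 3)
    have hΨF : Ψ F = FF A P Q S := by
      change π (aeval W (X 0)) = _
      rw [aeval_X]; exact map_FF π _ _ _ _
    have hΨg : Ψ g = gg A P Q S := by
      change π (aeval W (X 1)) = _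
      rw [aeval_X]; exact map_gg π _ _ _ _
    have hΨe : Ψ e = cc A P Q S := by
      change π (aeval W (X 2)) = _
      rw [aeval_X]; exact map_cc π _ _ _ _
    have hΨc : Ψ (C c) = xx A P Q S := by
      change π (aeval W (C c)) = _
      have h1 : (aeval W (C c) : P4) = C c := by simp [MvPolynomial.algebraMap_eq]
      have h2 : π (C c) = π fB := by
        rw [Ideal.Quotient.eq]
        have : (C c : P4) - fB = -(fB - C c) := by ring
        rw [this]
        exact I.neg_mem (Ideal.subset_span rfl)
      rw [h1, h2, fB]; exact map_xx π _ _ _ _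
    set Y := Ψ y with hY
    have hXY : xx A P Q S * Y = 1 := by
      rw [← hΨc, hY, ← map_mul, hxy, map_one]
    have ht : Ψ (tN y F g e) = tt A P Q S := by
      rw [map_tN, hΨF, hΨg, hΨe]
      apply cancelN hXY
      rw [xtN hXY, id_xt]
    have hr : Ψ (rN y F g e) = rho A P Q S := by
      have : rN y F g e = e - tN y F g e := rfl
      rw [this, map_sub, ht, hΨe, cc]; ring
    have ha : Ψ (aN y F g e) = A := by
      apply cancelN hXY
      have : aN y F g e = y * (F - g * rN y F g e) := rfl
      rw [this, map_mul, map_sub, map_mul, hr, hΨF, hΨg, ← mul_assoc, hXY, one_mul]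
      linear_combination id_F A P Q S
    have hk : Ψ (kN y F g e) = kk A P Q S := by
      have h1 := congrArg Ψ (show kN y F g e = (2 * tN y F g e - e) * aN y F g e +
        g * (y * (rN y F g e * tN y F g e - g * (g - 1))) from rfl)
      simp only [map_add, map_mul, map_sub, map_one, map_ofNat, ht, hr, ha, hΨg, hΨe, ← hY] at h1
      rw [h1]
      have h2 := id_rt A P Q S
      have h3 := id_k A P Q S
      have h4 : cc A P Q S = rho A P Q S + tt A P Q S := rfl
      have h5 : Y * (rho A P Q S * tt A P Q S - gg A P Q S * (gg A P Q S - 1)) =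
          - (gg A P Q S * bb A P Q S + rho A P Q S * A ^ 2) := by
        rw [h2]
        linear_combination (-(gg A P Q S * bb A P Q S + rho A P Q S * A ^ 2)) * hXY
      rw [h5, h4]
      linear_combination -h3
    have hb : Ψ (bN y F g e) = bb A P Q S := by
      have h1 := congrArg Ψ (show bN y F g e = y * (g - 1 - rN y F g e * kN y F g e) from rfl)
      simp only [map_mul, map_sub, map_one, hr, hk, hΨg, ← hY] at h1
      rw [h1]
      apply cancelN hXY
      rw [← mul_assoc, hXY, one_mul]
      linear_combination id_g A P Q S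
    intro i
    fin_cases i
    · exact ha
    · change Ψ (aN y F g e * F + rN y F g e) = P
      rw [map_add, map_mul, ha, hr, hΨF]
      exact (id_p A P Q S).symm
    · change Ψ (C c - g * F) = Q
      rw [map_sub, map_mul, hΨc, hΨg, hΨF]
      exact (id_q A P Q S).symm
    · change Ψ (aN y F g e ^ 2 * kN y F g e - (1 + aN y F g e * g) * bN y F g e) = S
      simp only [map_sub, map_mul, map_pow, map_add, map_one, ha, hk, hb, hΨg]
      exact (id_r A P Q S).symm

end Crest.Agent.R268
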