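import Crest.Agent.R268.FibCommon

/-! Row 268, T2b: the fibre `fB = 0` is an affine 3-space with coordinates `ρ, k, τ`. -/

set_option autoImplicit false

namespace Crest.Agent.R268

open MvPolynomial

section fns
variable {R : Type*} [CommRing R] (ρ k τ : R)

/-- `g = 1 + ρ k` -/
def gZ : R := 1 + ρ * k
/-- `β = k^2 - 2 k^4 + g τ` -/
def βZ : R := k ^ 2 - 2 * k ^ 4 + gZ ρ k * τ
/-- `a = k^2 + g β` -/
def aZ : R := k ^ 2 + gZ ρ k * βZ ρ k τ
/-- `b` -/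
def bZ : R := -(k - k ^ 3 + ρ * τ + k * (2 * gZ ρ k - 3) * βZ ρ k τ + gZ ρ k * ρ * βZ ρ k τ ^ 2)

theorem relZ3 : k = aZ ρ k τ * (gZ ρ k * k - ρ) - gZ ρ k ^ 2 * bZ ρ k τ
    - gZ ρ k * ρ * aZ ρ k τ ^ 2 := by
  simp only [aZ, bZ, βZ, gZ]; ring

/-- the coordinate `τ` in terms of `a, g, k, b` -/
def tauE {R : Type*} [CommRing R] (a g k b : R) : R :=
  k * b + a ^ 2 + (g * (k * b + a ^ 2) - a ^ 2 + a - k ^ 2 * a) * (1 - a - 2 * k ^ 2)

theorem betaE_rec : gZ ρ k * (k * bZ ρ k τ + aZ ρ k τ ^ 2) - aZ ρ k τ ^ 2 + aZ ρ k τ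
    - k ^ 2 * aZ ρ k τ = βZ ρ k τ := by
  simp only [aZ, bZ, βZ, gZ]; ring

theorem tauE_rec : tauE (aZ ρ k τ) (gZ ρ k) k (bZ ρ k τ) = τ := by
  rw [tauE, betaE_rec]
  simp only [aZ, bZ, βZ, gZ]; ring

end fns

section quot
variable {R : Type*} [CommRing R] {a g k b ρ : R}

/-- in the zero fibre: `β = a (..)`, reconstruction of `β` -/
theorem g_beta (hg : g = 1 + ρ * k)
    (h3 : k = a * (g * k - ρ) - g ^ 2 * b - g * ρ * a ^ 2) :
    g * (g * (k * b + a ^ 2) - a ^ 2 + a - k ^ 2 * a) = a - k ^ 2 := by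
  have hk : ρ * k = g - 1 := by rw [hg]; ring
  linear_combination k * h3 + (-a - g * a ^ 2) * hk

theorem betaZ_eq (hg : g = 1 + ρ * k)
    (h3 : k = a * (g * k - ρ) - g ^ 2 * b - g * ρ * a ^ 2) :
    βZ ρ k (tauE a g k b) = g * (k * b + a ^ 2) - a ^ 2 + a - k ^ 2 * a := by
  have h := g_beta hg h3
  rw [βZ, gZ, ← hg, tauE]
  linear_combination (1 - a - 2 * k ^ 2) * h

theorem aZ_eq (hg : g = 1 + ρ * k)
    (h3 : k = a * (g * k - ρ) - g ^ 2 * b - g * ρ * a ^ 2) :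
    aZ ρ k (tauE a g k b) = a := by
  rw [aZ, betaZ_eq hg h3, gZ, ← hg]
  linear_combination g_beta hg h3

theorem bZ_eq (hg : g = 1 + ρ * k)
    (h3 : k = a * (g * k - ρ) - g ^ 2 * b - g * ρ * a ^ 2) :
    bZ ρ k (tauE a g k b) = b := by
  have h := g_beta hg h3
  have hk : ρ * k = g - 1 := by rw [hg]; ring
  rw [bZ, betaZ_eq hg h3, gZ, ← hg]
  have ht : tauE a g k b = k * b + a ^ 2 +
      (g * (k * b + a ^ 2) - a ^ 2 + a - k ^ 2 * a) * (1 - a - 2 * k ^ 2) := rfl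
  rw [ht]
  obtain ⟨β, hβ⟩ : ∃ β, β = g * (k * b + a ^ 2) - a ^ 2 + a - k ^ 2 * a := ⟨_, rfl⟩
  rw [← hβ] at h ⊢
  linear_combination (k - ρ * β) * h + (k * a + 3 * k * β - b * (g + 1)) * hk - h3 - ρ * hβ

end quot

section maps
variable {R R' : Type*} [CommRing R] [CommRing R'] (f : R →+* R')

theorem map_gZ (ρ k : R) : f (gZ ρ k) = gZ (f ρ) (f k) := by simp [gZ]
theorem map_βZ (ρ k τ : R) : f (βZ ρ k τ) = βZ (f ρ) (f k) (f τ) := by
  simp only [βZ, map_gZ, map_add, map_sub, map_mul, map_pow, map_ofNat]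
theorem map_aZ (ρ k τ : R) : f (aZ ρ k τ) = aZ (f ρ) (f k) (f τ) := by
  simp only [aZ, map_gZ, map_βZ, map_add, map_mul, map_pow]
theorem map_bZ (ρ k τ : R) : f (bZ ρ k τ) = bZ (f ρ) (f k) (f τ) := by
  simp only [bZ, map_gZ, map_βZ, map_add, map_sub, map_neg, map_mul, map_pow, map_ofNat]
theorem map_tauE (a g k b : R) : f (tauE a g k b) = tauE (f a) (f g) (f k) (f b) := by
  simp only [tauE, map_add, map_sub, map_mul, map_pow, map_one, map_ofNat]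

end maps

theorem fib_zero : Nonempty ((P4 ⧸ Ideal.span {fB - C (0 : ℂ)}) ≃ₐ[ℂ] P3) := by
  set ρ : P3 := X 0 with hρ
  set k : P3 := X 1 with hk
  set τ : P3 := X 2 with hτ
  have H1 : gZ ρ k * ρ = 0 * aZ ρ k τ + gZ ρ k * ρ := by ring
  have H2 : gZ ρ k * k = gZ ρ k * k - 0 * aZ ρ k τ ^ 2 := by ring
  have H3 : k = aZ ρ k τ * (gZ ρ k * k - ρ) - gZ ρ k ^ 2 * bZ ρ k τ
    - gZ ρ k * ρ * aZ ρ k τ ^ 2 := relZ3 ρ k τ
  have H4 : gZ ρ k = 1 + ρ * k + 0 * bZ ρ k τ := by rw [gZ]; ring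
  have hgg := gg_rec H1 H2 H3 H4
  have hr := rho_rec H1 hgg
  have hkk := kk_rec H1 H2 H3 hgg
  have hbb := bb_rec H1 H2 H3 hgg
  have hxx := xx_rec H1 hgg
  let v : Fin 4 → P3 := ![aZ ρ k τ, aZ ρ k τ * (gZ ρ k * ρ) + ρ, 0 - gZ ρ k * (gZ ρ k * ρ),
      aZ ρ k τ ^ 2 * k - (1 + aZ ρ k τ * gZ ρ k) * bZ ρ k τ]
  let w : Fin 3 → P4 := ![rho (X 0) (X 1) (X 2) (X 3), kk (X 0) (X 1) (X 2) (X 3),
      tauE (X 0) (gg (X 0) (X 1) (X 2) (X 3)) (kk (X 0) (X 1) (X 2) (X 3))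
        (bb (X 0) (X 1) (X 2) (X 3))]
  let Φ : P4 →+* P3 := ((aeval v : P4 →ₐ[ℂ] P3) : P4 →+* P3)
  have hΦ : ∀ i, Φ (X i) = v i := fun i => aeval_X _ _
  have h0 : Φ (X 0) = aZ ρ k τ := hΦ 0
  have h1 : Φ (X 1) = aZ ρ k τ * (gZ ρ k * ρ) + ρ := hΦ 1
  have h2 : Φ (X 2) = 0 - gZ ρ k * (gZ ρ k * ρ) := hΦ 2
  have h3 : Φ (X 3) = aZ ρ k τ ^ 2 * k - (1 + aZ ρ k τ * gZ ρ k) * bZ ρ k τ := hΦ 3
  refine quot_equiv 0 v w ?_ ?_ ?_
  · rw [C_0]; exact hxx
  · intro i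
    fin_cases i
    · change Φ (rho (X 0) (X 1) (X 2) (X 3)) = ρ
      rw [map_rho, h0, h1, h2, h3]; exact hr
    · change Φ (kk (X 0) (X 1) (X 2) (X 3)) = k
      rw [map_kk, h0, h1, h2, h3]; exact hkk
    · change Φ (tauE (X 0) (gg (X 0) (X 1) (X 2) (X 3)) (kk (X 0) (X 1) (X 2) (X 3))
        (bb (X 0) (X 1) (X 2) (X 3))) = τ
      rw [map_tauE, map_gg, map_kk, map_bb, h0, h1, h2, h3, hgg, hkk, hbb]
      exact tauE_rec ρ k τ
  · set I : Ideal P4 := Ideal.span {fB - C (0 : ℂ)} with hI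
    let π : P4 →+* (P4 ⧸ I) := Ideal.Quotient.mk I
    let Ψ : P3 →+* (P4 ⧸ I) := π.comp ((aeval w : P3 →ₐ[ℂ] P4) : P3 →+* P4)
    let A := π (X 0)
    let P := π (X 1)
    let Q := π (X 2)
    let S := π (X 3)
    have hx0 : xx A P Q S = 0 := by
      have h4 : π fB = 0 := by
        rw [Ideal.Quotient.eq_zero_iff_mem, hI]
        have : (fB : P4) = fB - C (0 : ℂ) := by simp
        rw [this]
        exact Ideal.subset_span (by simp)
      rw [← h4, fB]; exact (map_xx π _ _ _ _).symm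
    have e0 : Ψ ρ = rho A P Q S := by
      change π (aeval w (X 0)) = _
      rw [aeval_X]; exact map_rho π _ _ _ _
    have e1 : Ψ k = kk A P Q S := by
      change π (aeval w (X 1)) = _
      rw [aeval_X]; exact map_kk π _ _ _ _
    have e2 : Ψ τ = tauE A (gg A P Q S) (kk A P Q S) (bb A P Q S) := by
      change π (aeval w (X 2)) = _
      rw [aeval_X]
      change π (tauE (X 0) (gg (X 0) (X 1) (X 2) (X 3)) (kk (X 0) (X 1) (X 2) (X 3))
        (bb (X 0) (X 1) (X 2) (X 3))) = _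
      rw [map_tauE, map_gg, map_kk, map_bb]
    have hg : gg A P Q S = 1 + rho A P Q S * kk A P Q S := by
      have := id_g A P Q S
      rw [hx0] at this
      linear_combination this
    have ht : tt A P Q S = gg A P Q S * kk A P Q S := by
      rw [tt, hx0]; ring
    have h3' : kk A P Q S = A * (gg A P Q S * kk A P Q S - rho A P Q S) -
        gg A P Q S ^ 2 * bb A P Q S - gg A P Q S * rho A P Q S * A ^ 2 := by
      have := id_k A P Q S
      rw [ht] at this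
      exact this
    have hgZ : Ψ (gZ ρ k) = gg A P Q S := by
      rw [map_gZ, e0, e1, gZ, hg]
    have haZ : Ψ (aZ ρ k τ) = A := by
      rw [map_aZ, e0, e1, e2]; exact aZ_eq hg h3'
    have hbZ : Ψ (bZ ρ k τ) = bb A P Q S := by
      rw [map_bZ, e0, e1, e2]; exact bZ_eq hg h3'
    have hF : gg A P Q S * rho A P Q S = FF A P Q S := by
      have := id_F A P Q S
      rw [hx0] at this
      linear_combination -this
    intro i
    fin_cases i
    · exact haZ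
    · change Ψ (aZ ρ k τ * (gZ ρ k * ρ) + ρ) = P
      simp only [map_add, map_mul, haZ, hgZ, e0]
      rw [hF]
      exact (id_p A P Q S).symm
    · change Ψ (0 - gZ ρ k * (gZ ρ k * ρ)) = Q
      simp only [map_sub, map_mul, map_zero, hgZ, e0]
      rw [hF]
      have := id_q A P Q S
      rw [hx0] at this
      exact this.symm
    · change Ψ (aZ ρ k τ ^ 2 * k - (1 + aZ ρ k τ * gZ ρ k) * bZ ρ k τ) = S
      simp only [map_sub, map_mul, map_pow, map_add, map_one, haZ, hbZ, hgZ, e1]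
      exact (id_r A P Q S).symm

end Crest.Agent.R268
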