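import Crest.Agent.R268.Defs

/-! Frozen interface for row 268 (never imported by proofs). -/

set_option autoImplicit false

namespace Crest.Agent.R268.Iface
open MvPolynomial Crest.Agent.R268

/-- T1 (file `R268/NonCoord.lean`, final name `Crest.Agent.R268.not_coord`) -/
theorem not_coord : ¬ ∃ τ : P4 ≃ₐ[ℂ] P4, τ fB = X 0 := by sorry

/-- T2a (file `R268/FibNe.lean`, final name `Crest.Agent.R268.fib_ne`) -/
theorem fib_ne (c : ℂ) (hc : c ≠ 0) :
    Nonempty ((P4 ⧸ Ideal.span {fB - C c}) ≃ₐ[ℂ] P3) := by sorry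

/-- T2b (file `R268/FibZero.lean`, final name `Crest.Agent.R268.fib_zero`) -/
theorem fib_zero : Nonempty ((P4 ⧸ Ideal.span {fB - C (0 : ℂ)}) ≃ₐ[ℂ] P3) := by sorry

/-- T3 (file `R268/Stable.lean`, final name `Crest.Agent.R268.stable`) -/
theorem stable : ∃ σ : Polynomial P4 ≃ₐ[ℂ] Polynomial P4,
    σ (Polynomial.C fB) = Polynomial.C (X 0) := by sorry

end Crest.Agent.R268.Iface
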