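import Crest.Agent.R268.Defs

/-! Locally nilpotent derivations: degree additivity, factorial closedness. -/

set_option autoImplicit false

namespace Crest.Agent.R268

open MvPolynomial

section LND
variable {R : Type*} [CommRing R] [Algebra ℂ R]

/-- local nilpotency -/
def LN (D : Derivation ℂ R R) : Prop := ∀ u : R, ∃ n : ℕ, (⇑D)^[n] u = 0

theorem iter_zero (D : Derivation ℂ R R) (n : ℕ) : (⇑D)^[n] (0 : R) = 0 := by
  induction n with
  | zero => rfl
  | succ n ih => rw [Function.iterate_succ_apply, map_zero, ih]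

theorem iter_le (D : Derivation ℂ R R) {n m : ℕ} {u : R} (h : (⇑D)^[n] u = 0) (hnm : n ≤ m) :
    (⇑D)^[m] u = 0 := by
  obtain ⟨k, rfl⟩ := Nat.exists_eq_add_of_le hnm
  rw [Nat.add_comm, Function.iterate_add_apply, h, iter_zero]

theorem iter_add (D : Derivation ℂ R R) (n : ℕ) (u v : R) :
    (⇑D)^[n] (u + v) = (⇑D)^[n] u + (⇑D)^[n] v := by
  induction n generalizing u v with
  | zero => rfl
  | succ n ih => rw [Function.iterate_succ_apply, map_add, ih]; rfl

theorem iter_mul (D : Derivation ℂ R R) (N : ℕ) : ∀ (n m : ℕ) (u v : R), n + m = N →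
    (⇑D)^[n + 1] u = 0 → (⇑D)^[m + 1] v = 0 →
    (⇑D)^[N + 1] (u * v) = 0 ∧
    (⇑D)^[N] (u * v) = (N.choose n : R) * ((⇑D)^[n] u * (⇑D)^[m] v) := by
  induction N with
  | zero =>
    intro n m u v h hu hv
    obtain ⟨rfl, rfl⟩ : n = 0 ∧ m = 0 := by omega
    simp only [zero_add, Function.iterate_one] at hu hv
    simp [hu, hv]
  | succ N ih =>
    intro n m u v h hu hv
    have h1 : (⇑D)^[N + 1] (u * D v) = 0 ∧
        (⇑D)^[N] (u * D v) = (N.choose n : R) * ((⇑D)^[n] u * (⇑D)^[m] v) := by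
      rcases m with _ | m
      · have hv' : D v = 0 := hv
        have hn : N.choose n = 0 := Nat.choose_eq_zero_of_lt (by omega)
        rw [hv', mul_zero, iter_zero, iter_zero, hn]
        simp
      · have := ih n m u (D v) (by omega) hu hv
        exact this
    have h2 : (⇑D)^[N + 1] (v * D u) = 0 ∧
        (⇑D)^[N] (v * D u) = ((if n = 0 then 0 else N.choose (n - 1) : ℕ) : R) *
          ((⇑D)^[n] u * (⇑D)^[m] v) := by
      rcases n with _ | n
      · have hu' : D u = 0 := hu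
        rw [hu', mul_zero, iter_zero, iter_zero]
        simp
      · have := ih n m (D u) v (by omega) hu hv
        rw [mul_comm v (D u)]
        simpa using this
    have hD : D (u * v) = u * D v + v * D u := by
      simp [Derivation.leibniz]
    refine ⟨?_, ?_⟩
    · rw [Function.iterate_succ_apply, hD, iter_add, h1.1, h2.1, add_zero]
    · rw [Function.iterate_succ_apply, hD, iter_add, h1.2, h2.2, ← add_mul]
      congr 1
      rcases n with _ | n
      · simp
      · rw [Nat.choose_succ_succ]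
        push_cast
        simp [add_comm]

theorem exists_deg {D : Derivation ℂ R R} (hD : LN D) {u : R} (hu : u ≠ 0) :
    ∃ n, (⇑D)^[n] u ≠ 0 ∧ (⇑D)^[n + 1] u = 0 := by
  classical
  have h := hD u
  have h0 : Nat.find h ≠ 0 := by
    intro h0
    have := Nat.find_spec h
    rw [h0] at this
    exact hu this
  obtain ⟨n, hn⟩ := Nat.exists_eq_succ_of_ne_zero h0
  refine ⟨n, ?_, ?_⟩
  · exact Nat.find_min h (by omega)
  · have := Nat.find_spec h
    rwa [hn] at this

variable [IsDomain R]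

theorem choose_ne (N n : ℕ) (h : n ≤ N) : (N.choose n : R) ≠ 0 := by
  have h0 : ((N.choose n : ℕ) : ℂ) ≠ 0 := by exact_mod_cast (Nat.choose_pos h).ne'
  intro hc
  have h1 : algebraMap ℂ R ((N.choose n : ℕ) : ℂ) = 0 := by rw [map_natCast]; exact hc
  exact h0 ((map_eq_zero_iff _ (algebraMap ℂ R).injective).mp h1)

/-- factorial closedness of the kernel -/
theorem ker_of_mul {D : Derivation ℂ R R} (hD : LN D) {u v : R} (hu : u ≠ 0) (hv : v ≠ 0)
    (h : D (u * v) = 0) : D u = 0 := by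
  obtain ⟨n, hn, hn'⟩ := exists_deg hD hu
  obtain ⟨m, hm, hm'⟩ := exists_deg hD hv
  have key := (iter_mul D (n + m) n m u v rfl hn' hm').2
  rcases n with _ | n
  · exact hn'
  · exfalso
    have : (⇑D)^[n + 1 + m] (u * v) = 0 := by
      have e : n + 1 + m = (n + m) + 1 := by omega
      rw [e, Function.iterate_succ_apply, h, iter_zero]
    rw [this] at key
    exact mul_ne_zero (choose_ne _ _ (by omega)) (mul_ne_zero hn hm) key.symm

theorem ker_of_mul' {D : Derivation ℂ R R} (hD : LN D) {u v : R} (hu : u ≠ 0) (hv : v ≠ 0)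
    (h : D (u * v) = 0) : D v = 0 :=
  ker_of_mul hD hv hu (by rwa [mul_comm])

/-- if `D u ∈ (u)` then `D u = 0` -/
theorem ker_of_dvd {D : Derivation ℂ R R} (hD : LN D) {u : R} (h : u ∣ D u) : D u = 0 := by
  by_contra hne
  obtain ⟨w, hw⟩ := h
  have hu : u ≠ 0 := by
    rintro rfl
    exact hne (map_zero D)
  have hw0 : w ≠ 0 := by
    rintro rfl
    exact hne (by rw [hw, mul_zero])
  obtain ⟨n, hn, hn'⟩ := exists_deg hD hu
  obtain ⟨m, hm, hm'⟩ := exists_deg hD hw0
  have key := (iter_mul D (n + m) n m u w rfl hn' hm').2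
  rw [← hw, ← Function.iterate_succ_apply, iter_le D hn' (by omega)] at key
  exact mul_ne_zero (choose_ne _ _ (by omega)) (mul_ne_zero hn hm) key.symm

end LND

section gen
variable {R : Type*} [CommRing R] [Algebra ℂ R]

theorem nil_add {D : Derivation ℂ R R} {u v : R} (hu : ∃ n : ℕ, (⇑D)^[n] u = 0)
    (hv : ∃ n : ℕ, (⇑D)^[n] v = 0) : ∃ n : ℕ, (⇑D)^[n] (u + v) = 0 := by
  obtain ⟨n, hn⟩ := hu
  obtain ⟨m, hm⟩ := hv
  exact ⟨n + m, by rw [iter_add, iter_le D hn (by omega), iter_le D hm (by omega), add_zero]⟩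

theorem nil_mul {D : Derivation ℂ R R} {u v : R} (hu : ∃ n : ℕ, (⇑D)^[n] u = 0)
    (hv : ∃ n : ℕ, (⇑D)^[n] v = 0) : ∃ n : ℕ, (⇑D)^[n] (u * v) = 0 := by
  obtain ⟨n, hn⟩ := hu
  obtain ⟨m, hm⟩ := hv
  exact ⟨n + m + 1, (iter_mul D (n + m) n m u v rfl (iter_le D hn (by omega))
    (iter_le D hm (by omega))).1⟩

/-- local nilpotency on a polynomial ring can be checked on the variables -/
theorem LN_of_X {σ : Type*} (D : Derivation ℂ (MvPolynomial σ ℂ) (MvPolynomial σ ℂ))
    (h : ∀ i, ∃ n : ℕ, (⇑D)^[n] (X i) = 0) : LN D := by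
  intro u
  induction u using MvPolynomial.induction_on with
  | C a => exact ⟨1, by simp⟩
  | add p q hp hq => exact nil_add hp hq
  | mul_X p i hp => exact nil_mul hp (h i)

end gen

/-! ### Reduction lemma -/

/-- reduction modulo the first variable -/
noncomputable def red : P4 →ₐ[ℂ] P3 := aeval (Fin.cons 0 X : Fin 4 → P3)

/-- embedding in the last three variables -/
noncomputable def emb : P3 →ₐ[ℂ] P4 := rename Fin.succ

@[simp] theorem red_X0 : red (X 0) = 0 := by simp [red]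
@[simp] theorem red_Xs (i : Fin 3) : red (X i.succ) = X i := by simp [red]
@[simp] theorem red_X1 : red (X 1) = X 0 := red_Xs 0
@[simp] theorem red_X2 : red (X 2) = X 1 := red_Xs 1
@[simp] theorem red_X3 : red (X 3) = X 2 := red_Xs 2
@[simp] theorem emb_X (i : Fin 3) : emb (X i) = X i.succ := by simp [emb]
@[simp] theorem emb_X0 : emb (X 0) = X 1 := emb_X 0
@[simp] theorem emb_X1 : emb (X 1) = X 2 := emb_X 1
@[simp] theorem emb_X2 : emb (X 2) = X 3 := emb_X 2

@[simp] theorem red_emb (u : P3) : red (emb u) = u := by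
  have : (red.comp emb) = AlgHom.id ℂ P3 := by
    apply MvPolynomial.algHom_ext
    intro i
    simp
  exact DFunLike.congr_fun this u

theorem sub_emb_red (u : P4) : (X 0 : P4) ∣ u - emb (red u) := by
  induction u using MvPolynomial.induction_on with
  | C a => simp [red, emb]
  | add p q hp hq =>
    rw [map_add, map_add]
    have : p + q - (emb (red p) + emb (red q)) = (p - emb (red p)) + (q - emb (red q)) := by ring
    rw [this]
    exact dvd_add hp hq
  | mul_X p i hp =>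
    rw [map_mul, map_mul]
    refine Fin.cases ?_ (fun j => ?_) i
    · simp
    · rw [red_Xs, emb_X, ← sub_mul]
      exact Dvd.dvd.mul_right hp _

theorem red_eq_zero_iff (u : P4) : red u = 0 ↔ (X 0 : P4) ∣ u := by
  constructor
  · intro h
    have := sub_emb_red u
    rwa [h, map_zero, sub_zero] at this
  · rintro ⟨w, rfl⟩
    simp

theorem X0_ne : (X 0 : P4) ≠ 0 := MvPolynomial.X_ne_zero 0

/-- extract the maximal power of `X 0` from a family -/
theorem exists_max_pow (l : Fin 3 → P4) (hl : ∃ i, l i ≠ 0) :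
    ∃ (e : ℕ) (l' : Fin 3 → P4), (∀ i, l i = X 0 ^ e * l' i) ∧ ∃ i, red (l' i) ≠ 0 := by
  classical
  obtain ⟨i0, hi0⟩ := hl
  have hfin : FiniteMultiplicity (X 0 : P4) (l i0) := by
    apply FiniteMultiplicity.of_not_isUnit _ hi0
    intro hu
    have h2 := hu.map (red : P4 →ₐ[ℂ] P3)
    rw [red_X0] at h2
    exact not_isUnit_zero h2
  obtain ⟨n, hn⟩ := hfin
  have hP0 : ∀ i, (X 0 : P4) ^ 0 ∣ l i := fun i => by simp
  have hbd : ∀ e, (∀ i, (X 0 : P4) ^ e ∣ l i) → e ≤ n := by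
    intro e he
    by_contra hlt
    exact hn ((pow_dvd_pow _ (by omega)).trans (he i0))
  let e := Nat.findGreatest (fun e => ∀ i, (X 0 : P4) ^ e ∣ l i) n
  have he : ∀ i, (X 0 : P4) ^ e ∣ l i :=
    Nat.findGreatest_spec (P := fun e => ∀ i, (X 0 : P4) ^ e ∣ l i) (Nat.zero_le n) hP0
  choose l' hl' using he
  refine ⟨e, l', hl', ?_⟩
  by_contra hcon
  push Not at hcon
  have h1 : ∀ i, (X 0 : P4) ^ (e + 1) ∣ l i := by
    intro i
    rw [hl' i, pow_succ]
    exact mul_dvd_mul_left _ ((red_eq_zero_iff _).mp (hcon i))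
  have h2 := Nat.le_findGreatest (P := fun e => ∀ i, (X 0 : P4) ^ e ∣ l i) (hbd _ h1) h1
  change e + 1 ≤ e at h2
  omega

theorem der_eq_on (D : Derivation ℂ P4 P4) (ι : P4 →ₐ[ℂ] P4) (Δ : Derivation ℂ P4 P4) (α β : P4)
    (h : ∀ i, α * D (ι (X i)) = β * ι (Δ (X i))) (u : P4) :
    α * D (ι u) = β * ι (Δ u) := by
  induction u using MvPolynomial.induction_on with
  | C a =>
    have h1 : ι (C a) = C a := by
      rw [← MvPolynomial.algebraMap_eq, AlgHom.commutes]
    rw [h1]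
    simp
  | add p q hp hq =>
    simp only [map_add, mul_add, hp, hq]
  | mul_X p i hp =>
    simp only [map_mul, Derivation.leibniz, map_add, smul_eq_mul]
    have := h i
    linear_combination (ι p) * this + (ι (X i)) * hp

/-- **Reduction lemma.** -/
theorem reduction (ι : P4 →ₐ[ℂ] P4) (hinj : Function.Injective ι)
    (hloc : ∀ b : P4, ∃ (N : ℕ) (l : P4), ι (X 0) ^ N * b = ι l)
    (D : Derivation ℂ P4 P4) (hLN : LN D) (hD0 : D (ι (X 0)) = 0)
    (hne : ∃ i : Fin 3, D (ι (X i.succ)) ≠ 0) :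
    ∃ (N e : ℕ) (Δ : Derivation ℂ P4 P4) (δ : Derivation ℂ P3 P3), LN δ ∧
      (∃ i, δ (X i) ≠ 0) ∧ (∀ u, red (Δ u) = δ (red u)) ∧
      ∀ u, ι (X 0) ^ N * D (ι u) = ι (X 0) ^ e * ι (Δ u) := by
  have hx0 : ι (X 0) ≠ 0 := by
    intro h
    exact X0_ne (hinj (by rw [h, map_zero]))
  -- common denominator
  choose N0 l0 h0 using fun i : Fin 3 => hloc (D (ι (X i.succ)))
  let N := ∑ i, N0 i
  have hN : ∀ i, N0 i ≤ N := fun i => Finset.single_le_sum (f := N0) (fun _ _ => Nat.zero_le _)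
    (Finset.mem_univ i)
  let l : Fin 3 → P4 := fun i => X 0 ^ (N - N0 i) * l0 i
  have hl : ∀ i, ι (X 0) ^ N * D (ι (X i.succ)) = ι (l i) := by
    intro i
    have : ι (X 0) ^ N = ι (X 0) ^ (N - N0 i) * ι (X 0) ^ (N0 i) := by
      rw [← pow_add]; congr 1; have := hN i; omega
    rw [this, mul_assoc, h0 i]
    simp [l]
  have hlne : ∃ i, l i ≠ 0 := by
    obtain ⟨i, hi⟩ := hne
    refine ⟨i, fun h => ?_⟩
    have := hl i
    rw [h, map_zero] at this
    exact mul_ne_zero (pow_ne_zero _ hx0) hi this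
  obtain ⟨e, l', hl', i1, hi1⟩ := exists_max_pow l hlne
  let Δ : Derivation ℂ P4 P4 := mkDerivation ℂ (Fin.cons 0 l' : Fin 4 → P4)
  let δ : Derivation ℂ P3 P3 := mkDerivation ℂ (fun i => red (l' i))
  have hΔ0 : Δ (X 0) = 0 := by simp [Δ, mkDerivation_X]
  have hΔs : ∀ i : Fin 3, Δ (X i.succ) = l' i := fun i => by simp [Δ, mkDerivation_X]
  have hδ : ∀ i : Fin 3, δ (X i) = red (l' i) := fun i => by simp [δ, mkDerivation_X]
  have hmain : ∀ u, ι (X 0) ^ N * D (ι u) = ι (X 0) ^ e * ι (Δ u) := by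
    apply der_eq_on
    intro i
    refine Fin.cases ?_ (fun j => ?_) i
    · rw [hD0, hΔ0, map_zero, mul_zero, mul_zero]
    · rw [hl j, hΔs j, hl' j, map_mul, map_pow]
  have hred : ∀ u, red (Δ u) = δ (red u) := by
    intro u
    induction u using MvPolynomial.induction_on with
    | C a =>
      have h1 : red (C a) = C a := by
        rw [← MvPolynomial.algebraMap_eq, AlgHom.commutes]; rfl
      rw [h1]; simp
    | add p q hp hq => simp only [map_add, hp, hq]
    | mul_X p i hp =>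
      have hX : red (Δ (X i)) = δ (red (X i)) := by
        refine Fin.cases ?_ (fun j => ?_) i
        · rw [hΔ0]; simp
        · rw [hΔs, red_Xs, hδ]
      simp only [map_mul, Derivation.leibniz, map_add, smul_eq_mul, hp, hX]
  -- iterates
  have hit : ∀ (n : ℕ) (u : P4), ι (X 0) ^ (e * n) * ι ((⇑Δ)^[n] u) =
      ι (X 0) ^ (N * n) * (⇑D)^[n] (ι u) := by
    intro n
    induction n with
    | zero => intro u; simp
    | succ n ih =>
      intro u
      have hDpow : ∀ (k : ℕ) (w : P4), D (ι (X 0) ^ k * w) = ι (X 0) ^ k * D w := by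
        intro k w
        rw [Derivation.leibniz, Derivation.leibniz_pow, hD0]
        simp
      have e1 : (⇑Δ)^[n + 1] u = Δ ((⇑Δ)^[n] u) := Function.iterate_succ_apply' _ _ _
      have e2 : (⇑D)^[n + 1] (ι u) = D ((⇑D)^[n] (ι u)) := Function.iterate_succ_apply' _ _ _
      calc ι (X 0) ^ (e * (n + 1)) * ι ((⇑Δ)^[n + 1] u)
          = ι (X 0) ^ (e * n) * (ι (X 0) ^ e * ι (Δ ((⇑Δ)^[n] u))) := by
            rw [e1, mul_add, mul_one, pow_add]; ring
        _ = ι (X 0) ^ (e * n) * (ι (X 0) ^ N * D (ι ((⇑Δ)^[n] u))) := by rw [hmain]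
        _ = ι (X 0) ^ N * D (ι (X 0) ^ (e * n) * ι ((⇑Δ)^[n] u)) := by rw [hDpow]; ring
        _ = ι (X 0) ^ N * D (ι (X 0) ^ (N * n) * (⇑D)^[n] (ι u)) := by rw [ih]
        _ = ι (X 0) ^ (N * (n + 1)) * (⇑D)^[n + 1] (ι u) := by
            rw [hDpow, e2, mul_add, mul_one, pow_add]; ring
  have hΔLN : LN Δ := by
    intro u
    obtain ⟨n, hn⟩ := hLN (ι u)
    refine ⟨n, ?_⟩
    have := hit n u
    rw [hn, mul_zero] at this
    have h3 := (mul_eq_zero.mp this).resolve_left (pow_ne_zero _ hx0)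
    exact hinj (by rw [h3, map_zero])
  have hδLN : LN δ := by
    intro u
    obtain ⟨n, hn⟩ := hΔLN (emb u)
    refine ⟨n, ?_⟩
    have : ∀ (n : ℕ) (w : P4), red ((⇑Δ)^[n] w) = (⇑δ)^[n] (red w) := by
      intro n
      induction n with
      | zero => intro w; rfl
      | succ n ih => intro w; rw [Function.iterate_succ_apply, ih, hred]; rfl
    have h4 := this n (emb u)
    rw [hn, map_zero, red_emb] at h4
    exact h4.symm
  exact ⟨N, e, Δ, δ, hδLN, ⟨i1, by rw [hδ]; exact hi1⟩, hred, hmain⟩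

/-- criterion for injectivity -/
theorem inj_of_points (ι : P4 →ₐ[ℂ] P4)
    (h : ∀ P : Fin 4 → ℂ, P 0 ≠ 0 → ∃ P' : Fin 4 → ℂ, ∀ i, eval P' (ι (X i)) = P i) :
    Function.Injective ι := by
  rw [injective_iff_map_eq_zero]
  intro u hu
  have h1 : (X 0 : P4) * u = 0 := by
    apply MvPolynomial.funext
    intro P
    rw [map_mul, map_zero, eval_X]
    by_cases hP : P 0 = 0
    · rw [hP, zero_mul]
    · obtain ⟨P', hP'⟩ := h P hP
      have h2 : ((aeval P' : P4 →ₐ[ℂ] ℂ).comp ι) = (aeval P : P4 →ₐ[ℂ] ℂ) := by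
        apply MvPolynomial.algHom_ext
        intro i
        have := hP' i
        simpa [MvPolynomial.aeval_eq_eval] using this
      have h3 := DFunLike.congr_fun h2 u
      rw [AlgHom.comp_apply, hu, map_zero] at h3
      have h4 : eval P u = 0 := by
        rw [← MvPolynomial.aeval_eq_eval]; exact h3.symm
      rw [h4, mul_zero]
  exact (mul_eq_zero.mp h1).resolve_left X0_ne

/-- closure: elements `b` with `x^N b` in the image of `ι` -/
def Loc (ι : P4 →ₐ[ℂ] P4) (b : P4) : Prop := ∃ (N : ℕ) (l : P4), ι (X 0) ^ N * b = ι l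

theorem Loc.add {ι : P4 →ₐ[ℂ] P4} {b c : P4} (hb : Loc ι b) (hc : Loc ι c) : Loc ι (b + c) := by
  obtain ⟨N, l, hl⟩ := hb
  obtain ⟨M, m, hm⟩ := hc
  refine ⟨N + M, X 0 ^ M * l + X 0 ^ N * m, ?_⟩
  rw [map_add, map_mul, map_mul, ← hl, ← hm, map_pow, map_pow]
  ring

theorem Loc.mul {ι : P4 →ₐ[ℂ] P4} {b c : P4} (hb : Loc ι b) (hc : Loc ι c) : Loc ι (b * c) := by
  obtain ⟨N, l, hl⟩ := hb
  obtain ⟨M, m, hm⟩ := hc
  refine ⟨N + M, l * m, ?_⟩
  rw [map_mul, ← hl, ← hm]
  ring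

theorem Loc.img {ι : P4 →ₐ[ℂ] P4} (l : P4) : Loc ι (ι l) := ⟨0, l, by simp⟩

theorem Loc.neg {ι : P4 →ₐ[ℂ] P4} {b : P4} (hb : Loc ι b) : Loc ι (-b) := by
  obtain ⟨N, l, hl⟩ := hb
  exact ⟨N, -l, by rw [map_neg, ← hl]; ring⟩

theorem Loc.sub {ι : P4 →ₐ[ℂ] P4} {b c : P4} (hb : Loc ι b) (hc : Loc ι c) : Loc ι (b - c) := by
  rw [sub_eq_add_neg]; exact hb.add hc.neg

theorem Loc.pow {ι : P4 →ₐ[ℂ] P4} {b : P4} (hb : Loc ι b) (n : ℕ) : Loc ι (b ^ n) := by
  induction n with
  | zero => exact ⟨0, 1, by simp⟩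
  | succ n ih => rw [pow_succ]; exact ih.mul hb

theorem Loc.one {ι : P4 →ₐ[ℂ] P4} : Loc ι 1 := ⟨0, 1, by simp⟩

theorem Loc.div {ι : P4 →ₐ[ℂ] P4} {b : P4} (hb : Loc ι (ι (X 0) * b)) : Loc ι b := by
  obtain ⟨N, l, hl⟩ := hb
  exact ⟨N + 1, l, by rw [← hl]; ring⟩

theorem Loc.all {ι : P4 →ₐ[ℂ] P4} (h : ∀ i, Loc ι (X i)) (b : P4) : Loc ι b := by
  induction b using MvPolynomial.induction_on with
  | C a => exact ⟨0, C a, by
      rw [← MvPolynomial.algebraMap_eq, AlgHom.commutes]; simp⟩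
  | add p q hp hq => exact hp.add hq
  | mul_X p i hp => exact hp.mul (h i)

end Crest.Agent.R268
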