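import Crest.Agent.R268.Defs

/-! Recovering `g, F, x, ρ, k, b` from the inverse formulas. -/

set_option autoImplicit false

namespace Crest.Agent.R268

section
variable {R : Type*} [CommRing R] {x F g ρ a k b : R}

/-- The core lemma: if `F = x a + g ρ`, `g = 1 + ρ k + x b` and
`k (1 - a g) + g^2 b = -a (a F + ρ)`, then with `p = a F + ρ`, `q = x - g F`,
`r = a^2 k - (1 + a g) b` all the functions take the expected values. -/
theorem recover_gg (hF : F = x * a + g * ρ) (hg : g = 1 + ρ * k + x * b)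
    (hk : k * (1 - a * g) + g ^ 2 * b = -a * (a * F + ρ)) :
    gg a (a * F + ρ) (x - g * F) (a ^ 2 * k - (1 + a * g) * b) = g := by
  subst hF
  simp only [gg]
  linear_combination (-(a * (x * a + g * ρ) + ρ)) * hk - hg

theorem recover_FF (hF : F = x * a + g * ρ) (hg : g = 1 + ρ * k + x * b)
    (hk : k * (1 - a * g) + g ^ 2 * b = -a * (a * F + ρ)) :
    FF a (a * F + ρ) (x - g * F) (a ^ 2 * k - (1 + a * g) * b) = F := by
  rw [FF, recover_gg hF hg hk]
  linear_combination -hF

theorem recover_xx (hF : F = x * a + g * ρ) (hg : g = 1 + ρ * k + x * b)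
    (hk : k * (1 - a * g) + g ^ 2 * b = -a * (a * F + ρ)) :
    xx a (a * F + ρ) (x - g * F) (a ^ 2 * k - (1 + a * g) * b) = x := by
  rw [xx, recover_FF hF hg hk, recover_gg hF hg hk]
  ring

theorem recover_rho (hF : F = x * a + g * ρ) (hg : g = 1 + ρ * k + x * b)
    (hk : k * (1 - a * g) + g ^ 2 * b = -a * (a * F + ρ)) :
    rho a (a * F + ρ) (x - g * F) (a ^ 2 * k - (1 + a * g) * b) = ρ := by
  rw [rho, recover_gg hF hg hk]
  linear_combination a * hF

theorem recover_kk (hF : F = x * a + g * ρ) (hg : g = 1 + ρ * k + x * b)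
    (hk : k * (1 - a * g) + g ^ 2 * b = -a * (a * F + ρ)) :
    kk a (a * F + ρ) (x - g * F) (a ^ 2 * k - (1 + a * g) * b) = k := by
  rw [kk, recover_gg hF hg hk]
  linear_combination -(1 + a * g) * hk

theorem recover_bb (hF : F = x * a + g * ρ) (hg : g = 1 + ρ * k + x * b)
    (hk : k * (1 - a * g) + g ^ 2 * b = -a * (a * F + ρ)) :
    bb a (a * F + ρ) (x - g * F) (a ^ 2 * k - (1 + a * g) * b) = b := by
  rw [bb, recover_gg hF hg hk]
  linear_combination -a ^ 2 * hk

theorem recover_tt (hF : F = x * a + g * ρ) (hg : g = 1 + ρ * k + x * b)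
    (hk : k * (1 - a * g) + g ^ 2 * b = -a * (a * F + ρ)) :
    tt a (a * F + ρ) (x - g * F) (a ^ 2 * k - (1 + a * g) * b) = g * k - x * a ^ 2 := by
  rw [tt, recover_gg hF hg hk, recover_kk hF hg hk, recover_xx hF hg hk]

theorem recover_cc (hF : F = x * a + g * ρ) (hg : g = 1 + ρ * k + x * b)
    (hk : k * (1 - a * g) + g ^ 2 * b = -a * (a * F + ρ)) :
    cc a (a * F + ρ) (x - g * F) (a ^ 2 * k - (1 + a * g) * b) = ρ + (g * k - x * a ^ 2) := by
  rw [cc, recover_rho hF hg hk, recover_tt hF hg hk]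

/-- the relation `hk` in the original ring -/
theorem id_hk (a p q r : R) : kk a p q r * (1 - a * gg a p q r) + gg a p q r ^ 2 * bb a p q r
    = -a * (a * FF a p q r + rho a p q r) := by
  simp only [kk, bb, FF, rho]; ring

end

end Crest.Agent.R268
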