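import Crest.Agent.R268.LND
import Crest.Agent.R268.Recover

/-! The polynomial `fB` is not a coordinate. -/

set_option autoImplicit false

namespace Crest.Agent.R268

open MvPolynomial

/-- the special relation `Q = F g c - F^2 - g^3 (g-1)` in `ℂ[F,g,c]` -/
noncomputable def Qb : P3 := X 0 * X 1 * X 2 - X 0 ^ 2 - X 1 ^ 3 * (X 1 - 1)

/-- second embedding: `c̃ ↦ y c` -/
noncomputable def iota2 : P4 →ₐ[ℂ] P4 := aeval ![X 0, X 1, X 2, X 0 * X 3]

@[simp] theorem iota2_X0 : iota2 (X 0) = X 0 := by simp [iota2]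
@[simp] theorem iota2_X1 : iota2 (X 1) = X 1 := by simp [iota2]
@[simp] theorem iota2_X2 : iota2 (X 2) = X 2 := by simp [iota2]
@[simp] theorem iota2_X3 : iota2 (X 3) = X 0 * X 3 := by simp [iota2]

theorem iota2_inj : Function.Injective iota2 := by
  apply inj_of_points
  intro P hP
  refine ⟨![P 0, P 1, P 2, P 3 / P 0], ?_⟩
  intro i
  fin_cases i
  · simp
  · simp
  · simp
  · simp [mul_div_cancel₀ _ hP]

theorem iota2_loc (b : P4) : Loc iota2 b := by
  apply Loc.all
  intro i
  fin_cases i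
  · exact ⟨0, X 0, by simp⟩
  · exact ⟨0, X 1, by simp⟩
  · exact ⟨0, X 2, by simp⟩
  · exact ⟨1, X 3, by simp⟩

theorem no_LND_kills_Q (δ : Derivation ℂ P3 P3) (hLN : LN δ) (hne : ∃ i, δ (X i) ≠ 0) :
    δ Qb ≠ 0 := by
  intro hQ
  let D₂ : Derivation ℂ P4 P4 :=
    mkDerivation ℂ (Fin.cons 0 (fun i => emb (δ (X i))) : Fin 4 → P4)
  have hD0 : D₂ (X 0) = 0 := by simp [D₂, mkDerivation_X]
  have hDs : ∀ i : Fin 3, D₂ (X i.succ) = emb (δ (X i)) := fun i => by
    simp [D₂, mkDerivation_X]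
  have hDe : ∀ u : P3, D₂ (emb u) = emb (δ u) := by
    intro u
    induction u using MvPolynomial.induction_on with
    | C a =>
      have h1 : emb (C a) = C a := by simp [emb]
      rw [h1]; simp
    | add p q hp hq => simp only [map_add, hp, hq]
    | mul_X p i hp =>
      have h1 : D₂ (emb (X i)) = emb (δ (X i)) := by rw [emb_X, hDs]
      simp only [map_mul, Derivation.leibniz, map_add, smul_eq_mul, hp, h1]
  have hDi : ∀ (n : ℕ) (u : P3), (⇑D₂)^[n] (emb u) = emb ((⇑δ)^[n] u) := by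
    intro n
    induction n with
    | zero => intro u; rfl
    | succ n ih => intro u; rw [Function.iterate_succ_apply, hDe, ih]; rfl
  have hLN2 : LN D₂ := by
    apply LN_of_X
    intro i
    refine Fin.cases ?_ (fun j => ?_) i
    · exact ⟨1, hD0⟩
    · obtain ⟨n, hn⟩ := hLN (X j)
      exact ⟨n, by rw [← emb_X, hDi, hn, map_zero]⟩
  have hemb : Function.Injective emb := by
    intro u v huv
    rw [← red_emb u, huv, red_emb]
  have hne2 : ∃ i : Fin 3, D₂ (iota2 (X i.succ)) ≠ 0 := by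
    obtain ⟨i, hi⟩ := hne
    refine ⟨i, ?_⟩
    have h0 : emb (δ (X i)) ≠ 0 := fun h => hi (hemb (by rw [h, map_zero]))
    fin_cases i
    · change D₂ (iota2 (X 1)) ≠ 0
      rw [iota2_X1]
      exact (hDs 0).trans_ne h0
    · change D₂ (iota2 (X 2)) ≠ 0
      rw [iota2_X2]
      exact (hDs 1).trans_ne h0
    · change D₂ (iota2 (X 3)) ≠ 0
      rw [iota2_X3, Derivation.leibniz, hD0, smul_zero, add_zero, smul_eq_mul]
      exact mul_ne_zero X0_ne ((hDs 2).trans_ne h0)
  obtain ⟨N, e, Δ, δ', hLN', ⟨i, hi⟩, hred, hmain⟩ :=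
    reduction iota2 iota2_inj iota2_loc D₂ hLN2 (by rw [iota2_X0]; exact hD0) hne2
  -- the element Q₂
  let Q₂ : P4 := X 1 * X 2 * X 3 - X 0 * (X 1 ^ 2 + X 2 ^ 3 * (X 2 - 1))
  have hQ₂ : iota2 Q₂ = X 0 * emb Qb := by
    simp only [Q₂, Qb, map_sub, map_mul, map_add, map_pow, map_one, iota2_X0, iota2_X1, iota2_X2,
      iota2_X3, emb_X0, emb_X1, emb_X2]
    ring
  have h1 : D₂ (iota2 Q₂) = 0 := by
    rw [hQ₂, Derivation.leibniz, hD0, hDe, hQ, map_zero]
    simp
  have h2 := hmain Q₂
  rw [h1, mul_zero, iota2_X0] at h2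
  have h3 : Δ Q₂ = 0 := by
    have := (mul_eq_zero.mp h2.symm).resolve_left (pow_ne_zero _ X0_ne)
    exact iota2_inj (by rw [this, map_zero])
  have h4 : δ' (X 0 * X 1 * X 2) = 0 := by
    have h5 := hred Q₂
    rw [h3, map_zero] at h5
    have h6 : red Q₂ = X 0 * X 1 * X 2 := by
      simp [Q₂]
    rw [h6] at h5
    exact h5.symm
  have hX : ∀ i : Fin 3, (X i : P3) ≠ 0 := fun i => MvPolynomial.X_ne_zero i
  have h01 : δ' (X 0 * X 1) = 0 :=
    ker_of_mul hLN' (mul_ne_zero (hX 0) (hX 1)) (hX 2) h4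
  have h2' : δ' (X 2) = 0 :=
    ker_of_mul' hLN' (mul_ne_zero (hX 0) (hX 1)) (hX 2) h4
  have h0' : δ' (X 0) = 0 := ker_of_mul hLN' (hX 0) (hX 1) h01
  have h1' : δ' (X 1) = 0 := ker_of_mul' hLN' (hX 0) (hX 1) h01
  fin_cases i
  · exact hi h0'
  · exact hi h1'
  · exact hi h2'

/-! ### The main embedding -/

noncomputable def bF : P4 := FF (X 0) (X 1) (X 2) (X 3)
noncomputable def bg : P4 := gg (X 0) (X 1) (X 2) (X 3)
noncomputable def bc : P4 := cc (X 0) (X 1) (X 2) (X 3)
noncomputable def bt : P4 := tt (X 0) (X 1) (X 2) (X 3)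
noncomputable def brho : P4 := rho (X 0) (X 1) (X 2) (X 3)
noncomputable def bk : P4 := kk (X 0) (X 1) (X 2) (X 3)
noncomputable def bbb : P4 := bb (X 0) (X 1) (X 2) (X 3)

/-- `(x, F, g, c)` -/
noncomputable def iota : P4 →ₐ[ℂ] P4 := aeval ![fB, bF, bg, bc]

@[simp] theorem iota_X0 : iota (X 0) = fB := by simp [iota]
@[simp] theorem iota_X1 : iota (X 1) = bF := by simp [iota]
@[simp] theorem iota_X2 : iota (X 2) = bg := by simp [iota]
@[simp] theorem iota_X3 : iota (X 3) = bc := by simp [iota]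

theorem ev_gg (P : Fin 4 → ℂ) : eval P bg = gg (P 0) (P 1) (P 2) (P 3) := by
  simp [bg, gg]
theorem ev_FF (P : Fin 4 → ℂ) : eval P bF = FF (P 0) (P 1) (P 2) (P 3) := by
  simp [bF, FF, gg]
theorem ev_xx (P : Fin 4 → ℂ) : eval P fB = xx (P 0) (P 1) (P 2) (P 3) := by
  simp [fB, xx, FF, gg]
theorem ev_cc (P : Fin 4 → ℂ) : eval P bc = cc (P 0) (P 1) (P 2) (P 3) := by
  simp [bc, cc, rho, tt, kk, xx, FF, gg]


/-- points with `x ≠ 0`: every value of `(x,F,g,c)` is attained -/
theorem exists_point (x F g c : ℂ) (hx : x ≠ 0) :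
    ∃ a p q r : ℂ, xx a p q r = x ∧ FF a p q r = F ∧ gg a p q r = g ∧ cc a p q r = c := by
  set t := (F * g * c - F ^ 2 - g ^ 3 * (g - 1)) / x with ht
  set ρ := c - t with hρ
  set a := (F - g * ρ) / x with ha
  set a2 := (ρ * t - g * (g - 1)) / x with ha2
  set k := (t - ρ) * a + g * a2 with hk
  set b := (g - 1 - ρ * k) / x with hb
  have e1 : x * t = F * g * c - F ^ 2 - g ^ 3 * (g - 1) := by rw [ht]; field_simp
  have e2 : x * a = F - g * ρ := by rw [ha]; field_simp
  have e3 : x * a2 = ρ * t - g * (g - 1) := by rw [ha2]; field_simp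
  have e5 : x * b = g - 1 - ρ * k := by rw [hb]; field_simp
  have hF : F = x * a + g * ρ := by linear_combination -e2
  have hc : c = ρ + t := by rw [hρ]; ring
  clear_value t ρ a a2 k b
  have e6 : t = g * k - x * a ^ 2 := by
    apply mul_left_cancel₀ hx
    rw [e1, hk, hc, hF]
    linear_combination (-g ^ 2) * e3
  have e7 : a2 = -(g * b) - ρ * a ^ 2 := by
    apply mul_left_cancel₀ hx
    linear_combination e3 + g * e5 + ρ * e6
  have hg : g = 1 + ρ * k + x * b := by linear_combination -e5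
  have hkk : k * (1 - a * g) + g ^ 2 * b = -a * (a * F + ρ) := by
    rw [e7] at hk
    linear_combination hk + a * e6 + a ^ 2 * hF
  refine ⟨a, a * F + ρ, x - g * F, a ^ 2 * k - (1 + a * g) * b, recover_xx hF hg hkk,
    recover_FF hF hg hkk, recover_gg hF hg hkk, ?_⟩
  rw [recover_cc hF hg hkk, hc, ← e6]

theorem iota_inj : Function.Injective iota := by
  apply inj_of_points
  intro P hP
  obtain ⟨a, p, q, r, h0, h1, h2, h3⟩ := exists_point (P 0) (P 1) (P 2) (P 3) hP
  refine ⟨![a, p, q, r], ?_⟩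
  intro i
  fin_cases i
  · simpa [ev_xx] using h0
  · simpa [ev_FF] using h1
  · simpa [ev_gg] using h2
  · simpa [ev_cc] using h3

theorem iota_loc (b : P4) : Loc iota b := by
  have hx : Loc iota fB := by rw [← iota_X0]; exact Loc.img _
  have hF : Loc iota bF := by rw [← iota_X1]; exact Loc.img _
  have hg : Loc iota bg := by rw [← iota_X2]; exact Loc.img _
  have hc : Loc iota bc := by rw [← iota_X3]; exact Loc.img _
  have ht : Loc iota bt := by
    apply Loc.div
    rw [iota_X0]
    have : fB * bt = bF * bg * bc - bF ^ 2 - bg ^ 3 * (bg - 1) := id_xt _ _ _ _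
    rw [this]
    exact (((hF.mul hg).mul hc).sub (hF.pow 2)).sub ((hg.pow 3).mul (hg.sub Loc.one))
  have hρ : Loc iota brho := by
    have : brho = bc - bt := by
      simp only [brho, bc, bt, cc]; ring
    rw [this]
    exact hc.sub ht
  have ha : Loc iota (X 0) := by
    apply Loc.div
    rw [iota_X0]
    have : fB * X 0 = bF - bg * brho := by
      have := id_F (X 0 : P4) (X 1) (X 2) (X 3)
      simp only [fB, bF, bg, brho]
      linear_combination -this
    rw [this]
    exact hF.sub (hg.mul hρ)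
  have ha2 : Loc iota (bg * bbb + brho * X 0 ^ 2) := by
    apply Loc.div
    rw [iota_X0]
    have : fB * (bg * bbb + brho * X 0 ^ 2) = bg * (bg - 1) - brho * bt := by
      have := id_rt (X 0 : P4) (X 1) (X 2) (X 3)
      simp only [fB, bbb, bt, bg, brho]
      linear_combination this
    rw [this]
    exact (hg.mul (hg.sub Loc.one)).sub (hρ.mul ht)
  have hk : Loc iota bk := by
    have : bk = X 0 * (bt - brho) - bg * (bg * bbb + brho * X 0 ^ 2) := by
      have := id_k (X 0 : P4) (X 1) (X 2) (X 3)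
      simp only [bk, bbb, bt, bg, brho]
      linear_combination this
    rw [this]
    exact (ha.mul (ht.sub hρ)).sub (hg.mul ha2)
  have hb : Loc iota bbb := by
    apply Loc.div
    rw [iota_X0]
    have : fB * bbb = bg - 1 - brho * bk := by
      have := id_g (X 0 : P4) (X 1) (X 2) (X 3)
      simp only [fB, bk, bbb, bg, brho]
      linear_combination -this
    rw [this]
    exact (hg.sub Loc.one).sub (hρ.mul hk)
  apply Loc.all
  intro i
  fin_cases i
  · exact ha
  · change Loc iota (X 1)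
    rw [id_p (X 0 : P4) (X 1) (X 2) (X 3)]
    exact (ha.mul hF).add hρ
  · change Loc iota (X 2)
    rw [id_q (X 0 : P4) (X 1) (X 2) (X 3)]
    exact hx.sub (hg.mul hF)
  · change Loc iota (X 3)
    rw [id_r (X 0 : P4) (X 1) (X 2) (X 3)]
    exact ((ha.pow 2).mul hk).sub ((Loc.one.add (ha.mul hg)).mul hb)


/-! ### The contraction of `(x)` to `ℂ[F,g,c]` is `(Q)` -/

abbrev P2 := MvPolynomial (Fin 2) ℂ

/-- `ℂ[F,g] → ℂ[F,g,c]` -/
noncomputable def emb2 : P2 →ₐ[ℂ] P3 := aeval ![X 0, X 1]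

@[simp] theorem emb2_X0 : emb2 (X 0) = X 0 := by simp [emb2]
@[simp] theorem emb2_X1 : emb2 (X 1) = X 1 := by simp [emb2]

/-- `(F g)^N v = Q u + w(F,g)` -/
theorem exists_division (v : P3) : ∃ (N : ℕ) (u : P3) (w : P2),
    (X 0 * X 1) ^ N * v = Qb * u + emb2 w := by
  induction v using MvPolynomial.induction_on with
  | C a =>
    refine ⟨0, 0, C a, ?_⟩
    have : emb2 (C a) = C a := by
      rw [← MvPolynomial.algebraMap_eq, AlgHom.commutes]; rfl
    rw [this]; simp
  | add p q hp hq =>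
    obtain ⟨N, u, w, h⟩ := hp
    obtain ⟨M, u', w', h'⟩ := hq
    refine ⟨N + M, (X 0 * X 1) ^ M * u + (X 0 * X 1) ^ N * u',
      (X 0 * X 1) ^ M * w + (X 0 * X 1) ^ N * w', ?_⟩
    simp only [map_add, map_mul, map_pow, emb2_X0, emb2_X1]
    rw [pow_add]
    linear_combination (X 0 * X 1) ^ M * h + (X 0 * X 1) ^ N * h'
  | mul_X p i hp =>
    obtain ⟨N, u, w, h⟩ := hp
    have hi : ∃ (M : ℕ) (u' : P3) (w' : P2), (X 0 * X 1) ^ M * X i = Qb * u' + emb2 w' := by
      fin_cases i
      · exact ⟨0, 0, X 0, by simp⟩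
      · exact ⟨0, 0, X 1, by simp⟩
      · refine ⟨1, 1, X 0 ^ 2 + X 1 ^ 3 * (X 1 - 1), ?_⟩
        simp only [map_add, map_mul, map_pow, map_sub, map_one, emb2_X0, emb2_X1, Qb]
        change (X 0 * X 1) ^ 1 * (X 2 : P3) = _
        ring
    obtain ⟨M, u', w', h'⟩ := hi
    refine ⟨N + M, Qb * u * u' + u * emb2 w' + emb2 w * u', w * w', ?_⟩
    rw [map_mul, pow_add]
    linear_combination ((X 0 * X 1) ^ M * X i) * h + (Qb * u + emb2 w) * h'

theorem dvd_cancel {π Q v : P3} (hπ : Prime π) (hQ : ¬ π ∣ Q) (N : ℕ) (h : Q ∣ π ^ N * v) :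
    Q ∣ v := by
  induction N with
  | zero => simpa using h
  | succ N ih =>
    apply ih
    obtain ⟨u, hu⟩ := h
    have h1 : π ∣ Q * u := ⟨π ^ N * v, by rw [← hu]; ring⟩
    obtain ⟨u', rfl⟩ := (hπ.dvd_or_dvd h1).resolve_left hQ
    refine ⟨u', ?_⟩
    apply mul_left_cancel₀ hπ.ne_zero
    linear_combination hu

theorem not_X0_dvd_Qb : ¬ (X 0 : P3) ∣ Qb := by
  rintro ⟨u, hu⟩
  have := congrArg (eval ![(0 : ℂ), 2, 0]) hu
  simp [Qb] at this
  norm_num at this

theorem not_X1_dvd_Qb : ¬ (X 1 : P3) ∣ Qb := by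
  rintro ⟨u, hu⟩
  have := congrArg (eval ![(1 : ℂ), 0, 0]) hu
  simp [Qb] at this

theorem iota_emb_Qb : iota (emb Qb) = fB * bt := by
  have := id_xt (X 0 : P4) (X 1) (X 2) (X 3)
  simp only [Qb, map_sub, map_mul, map_pow, map_one, emb_X0, emb_X1, emb_X2, iota_X1, iota_X2,
    iota_X3]
  simp only [fB, bt, bF, bg, bc]
  linear_combination -this

theorem Qb_dvd (v : P3) (h : fB ∣ iota (emb v)) : Qb ∣ v := by
  obtain ⟨N, u, w, hN⟩ := exists_division v
  have h1 : fB ∣ iota (emb (emb2 w)) := by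
    have e : emb2 w = (X 0 * X 1) ^ N * v - Qb * u := by rw [hN]; ring
    rw [e, map_sub, map_sub, map_mul, map_mul, map_mul, map_mul, iota_emb_Qb]
    exact dvd_sub (h.mul_left _) (by rw [mul_assoc]; exact dvd_mul_right _ _)
  have h2 : w = 0 := by
    have hw : (X 0 * X 1 : P2) * w = 0 := by
      apply MvPolynomial.funext
      intro P
      rw [map_mul, map_mul, map_zero, eval_X, eval_X]
      by_cases hF : P 0 = 0
      · rw [hF]; ring
      by_cases hg : P 1 = 0
      · rw [hg]; ring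
      set P' : Fin 4 → ℂ := ![0, P 0 / P 1, -(P 1 * P 0), (P 1 - 1) / (P 0 * P 1)] with hP'
      have hgg : eval P' bg = P 1 := by
        rw [ev_gg]
        simp only [hP', gg, Matrix.cons_val]
        field_simp
        ring
      have hgg' : gg (P' 0) (P' 1) (P' 2) (P' 3) = P 1 := by rw [← ev_gg, hgg]
      have hFF : eval P' bF = P 0 := by
        rw [ev_FF, FF, hgg']
        simp only [hP', Matrix.cons_val]
        field_simp
        ring
      have hFF' : FF (P' 0) (P' 1) (P' 2) (P' 3) = P 0 := by rw [← ev_FF, hFF]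
      have hxx : eval P' fB = 0 := by
        rw [ev_xx, xx, hgg', hFF']
        simp only [hP', Matrix.cons_val]
        ring
      obtain ⟨z, hz⟩ := h1
      have h3 : eval P' (iota (emb (emb2 w))) = 0 := by rw [hz, map_mul, hxx, zero_mul]
      have h4 : ((((aeval P' : P4 →ₐ[ℂ] ℂ).comp iota).comp emb).comp emb2) =
          (aeval P : P2 →ₐ[ℂ] ℂ) := by
        apply MvPolynomial.algHom_ext
        intro i
        fin_cases i
        · simp [MvPolynomial.aeval_eq_eval, hFF]
        · simp [MvPolynomial.aeval_eq_eval, hgg]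
      have h5 := DFunLike.congr_fun h4 w
      simp only [AlgHom.comp_apply, MvPolynomial.aeval_eq_eval] at h5
      have h6 : eval P w = 0 := by
        rw [← h5]; exact h3
      rw [h6, mul_zero]
    have hne : (X 0 * X 1 : P2) ≠ 0 := mul_ne_zero (X_ne_zero 0) (X_ne_zero 1)
    exact (mul_eq_zero.mp hw).resolve_left hne
  rw [h2, map_zero, add_zero, mul_pow, mul_assoc] at hN
  exact dvd_cancel (X_prime (i := (1 : Fin 3))) not_X1_dvd_Qb N
    (dvd_cancel (X_prime (i := (0 : Fin 3))) not_X0_dvd_Qb N ⟨u, hN⟩)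

/-- if `ι l ∈ (x)` then `Q` divides the reduction of `l` -/
theorem Qb_dvd_red (l : P4) (h : fB ∣ iota l) : Qb ∣ red l := by
  apply Qb_dvd
  obtain ⟨z, hz⟩ := sub_emb_red l
  have : iota (emb (red l)) = iota l - fB * iota z := by
    have e : emb (red l) = l - X 0 * z := by rw [← hz]; ring
    rw [e, map_sub, map_mul, iota_X0]
  rw [this]
  exact dvd_sub h (dvd_mul_right _ _)

/-- **Rigidity**: every locally nilpotent derivation killing `x` maps `F` into `(x)`. -/
theorem rigid (D : Derivation ℂ P4 P4) (hLN : LN D) (hD0 : D fB = 0) : fB ∣ D bF := by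
  by_cases hne : ∃ i : Fin 3, D (iota (X i.succ)) ≠ 0
  · obtain ⟨N, e, Δ, δ, hδ, hδne, hred, hmain⟩ :=
      reduction iota iota_inj iota_loc D hLN (by rw [iota_X0]; exact hD0) hne
    have hfne : fB ≠ 0 := by
      intro h
      exact X0_ne (iota_inj (by rw [iota_X0, h, map_zero]))
    rcases Nat.lt_or_ge N e with hlt | hge
    · -- `D F = x^(e-N) ι (Δ F)`
      have h1 := hmain (X 1)
      rw [iota_X0, iota_X1] at h1
      obtain ⟨m, rfl⟩ := Nat.exists_eq_add_of_lt hlt
      have h2 : D bF = fB ^ (m + 1) * iota (Δ (X 1)) := by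
        apply mul_left_cancel₀ (pow_ne_zero N hfne)
        rw [h1]; ring
      rw [h2, pow_succ']
      exact ⟨fB ^ m * iota (Δ (X 1)), by ring⟩
    · exfalso
      obtain ⟨m, rfl⟩ := Nat.exists_eq_add_of_le hge
      have h1 := hmain (emb Qb)
      have h2 : iota (Δ (emb Qb)) = fB ^ m * D (fB * bt) := by
        rw [iota_X0, iota_emb_Qb] at h1
        apply mul_left_cancel₀ (pow_ne_zero e hfne)
        rw [← h1]; ring
      have h3 : fB ∣ iota (Δ (emb Qb)) := by
        rw [h2, Derivation.leibniz, hD0, smul_zero, add_zero, smul_eq_mul]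
        exact ⟨fB ^ m * D bt, by ring⟩
      have h4 := Qb_dvd_red _ h3
      rw [hred, red_emb] at h4
      exact no_LND_kills_Q δ hδ hδne (ker_of_dvd hδ h4)
  · push Not at hne
    have := hne 0
    have h1 : D bF = 0 := by
      rw [← iota_X1]; exact this
    rw [h1]
    exact dvd_zero _

/-- all partial derivatives vanish: constant -/
theorem const_of_pderiv (v : P3) (h : ∀ i, pderiv i v = 0) : v = C (coeff 0 v) := by
  ext m
  rw [coeff_C]
  split_ifs with hm
  · rw [hm]
  · have : ∃ i, m i ≠ 0 := by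
      by_contra hcon
      push Not at hcon
      exact hm (by ext i; simp [hcon i])
    obtain ⟨i, hi⟩ := this
    have h1 : coeff (m - Finsupp.single i 1) (pderiv i v) = 0 := by rw [h i, coeff_zero]
    rw [coeff_pderiv] at h1
    have h2 : m - Finsupp.single i 1 + Finsupp.single i 1 = m := by
      ext j
      by_cases hj : j = i
      · subst hj
        simp
        omega
      · simp [Finsupp.single_eq_of_ne hj]
    rw [h2] at h1
    rcases mul_eq_zero.mp h1 with h3 | h3
    · exact h3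
    · exfalso
      exact Nat.cast_add_one_ne_zero _ h3

theorem red_pderiv (i : Fin 3) (u : P4) : red (pderiv i.succ u) = pderiv i (red u) := by
  induction u using MvPolynomial.induction_on with
  | C a =>
    have h1 : red (C a) = C a := by
      rw [← MvPolynomial.algebraMap_eq, AlgHom.commutes]; rfl
    rw [h1]; simp
  | add p q hp hq => simp only [map_add, hp, hq]
  | mul_X p j hp =>
    have hX : red (pderiv i.succ (X j)) = pderiv i (red (X j)) := by
      refine Fin.cases ?_ (fun l => ?_) j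
      · rw [pderiv_X_of_ne (Fin.succ_ne_zero i).symm, red_X0, map_zero, map_zero]
      · rw [red_Xs]
        by_cases hl : l = i
        · subst hl; rw [pderiv_X_self, pderiv_X_self, map_one]
        · rw [pderiv_X_of_ne hl, pderiv_X_of_ne (fun h => hl (Fin.succ_injective _ h)), map_zero]
    simp only [map_mul, Derivation.leibniz, map_add, smul_eq_mul, hp, hX]

/-- T1: `fB` is not a coordinate. -/
theorem not_coord : ¬ ∃ τ : P4 ≃ₐ[ℂ] P4, τ fB = X 0 := by
  rintro ⟨τ, hτ⟩
  -- conjugated partial derivatives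
  have key : ∀ i : Fin 3, (X 0 : P4) ∣ pderiv i.succ (τ bF) := by
    intro i
    let D : Derivation ℂ P4 P4 := Derivation.mk'
      (τ.symm.toLinearMap ∘ₗ (pderiv i.succ : Derivation ℂ P4 P4).toLinearMap ∘ₗ τ.toLinearMap)
      (by
        intro u v
        simp [Derivation.leibniz])
    have hDapp : ∀ u, D u = τ.symm (pderiv i.succ (τ u)) := fun u => rfl
    have hLN : LN D := by
      have hit : ∀ (n : ℕ) (u : P4), τ ((⇑D)^[n] u) = (⇑(pderiv i.succ : Derivation ℂ P4 P4))^[n] (τ u) := by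
        intro n
        induction n with
        | zero => intro u; rfl
        | succ n ih =>
          intro u
          rw [Function.iterate_succ_apply, ih, hDapp, AlgEquiv.apply_symm_apply]; rfl
      have hp : LN (pderiv i.succ : Derivation ℂ P4 P4) := by
        apply LN_of_X
        intro j
        refine ⟨2, ?_⟩
        rw [Function.iterate_succ_apply, Function.iterate_one, pderiv_X]
        by_cases hij : j = i.succ
        · subst hij; simp
        · rw [Pi.single_eq_of_ne hij]; simp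
      intro u
      obtain ⟨n, hn⟩ := hp (τ u)
      refine ⟨n, ?_⟩
      rw [← hit] at hn
      exact τ.injective (by rw [hn, map_zero])
    have hD0 : D fB = 0 := by
      rw [hDapp, hτ, pderiv_X_of_ne (by exact (Fin.succ_ne_zero i).symm), map_zero]
    obtain ⟨z, hz⟩ := rigid D hLN hD0
    refine ⟨τ z, ?_⟩
    rw [← hτ, ← map_mul, ← hz, hDapp, AlgEquiv.apply_symm_apply]
  have hconst : ∀ i : Fin 3, pderiv i (red (τ bF)) = 0 := by
    intro i
    rw [← red_pderiv]
    exact (red_eq_zero_iff _).mpr (key i)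
  have h1 := const_of_pderiv _ hconst
  obtain ⟨h, hh⟩ := sub_emb_red (τ bF)
  set a0 := coeff 0 (red (τ bF)) with ha0
  have h2 : τ bF = C a0 + X 0 * h := by
    rw [← hh, h1]
    have : emb (C a0) = C a0 := by simp [emb]
    rw [this]; ring
  have h3 : bF = C a0 + fB * τ.symm h := by
    apply τ.injective
    rw [map_add, map_mul, hτ, AlgEquiv.apply_symm_apply, h2]
    congr 1
    rw [← MvPolynomial.algebraMap_eq, AlgEquiv.commutes]
  have e1 := congrArg (eval ![(0 : ℂ), 0, 0, 0]) h3
  have e2 := congrArg (eval ![(0 : ℂ), 1, -1, 0]) h3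
  rw [map_add, map_mul, eval_C, ev_xx, ev_FF] at e1 e2
  simp [xx, FF, gg] at e1 e2
  rw [← e1] at e2
  exact one_ne_zero e2

end Crest.Agent.R268
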