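import Crest.Agent.R268.Defs

/-!
# Row 268, T3: `fB` is a 1-stable coordinate

Explicit isomorphism `ℂ[x,R,T,H,e] ≃ ℂ[a,p,q,r][w]` with `x ↦ fB`.
-/

set_option autoImplicit false

namespace Crest.Agent.R268.St

section forward
variable {S : Type*} [CommRing S] (a p q r w : S)

def fs : S := a ^ 2 + gg a p q r * w
def fR : S := rho a p q r - xx a p q r * fs a p q r w
def fT : S := kk a p q r + xx a p q r * w
def fA : S := a + gg a p q r * fs a p q r w
def fG : S := bb a p q r - rho a p q r * w + fs a p q r w * fT a p q r w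
def fE : S := w - fs a p q r w * (a + fA a p q r w)
def fe : S := fE a p q r w - 2 * gg a p q r * fG a p q r w ^ 2 + xx a p q r * fG a p q r w ^ 3
  + fG a p q r w * fT a p q r w * fA a p q r w

end forward

section inv
variable {S : Type*} [CommRing S] (x R T H e : S)

def jg' : S := 1 + R * T
def jv : S := (1 - T ^ 2) ^ 2
def ju : S := T * (1 + jg' R T * (1 - T ^ 2))

theorem juv : jg' R T ^ 2 * jv T - (R - jg' R T * T) * ju R T = 1 := by
  simp only [jg', jv, ju]; ring

def jG : S := jv T * (x * e - T) - (R - jg' R T * T) * H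
def jA : S := -ju R T * (x * e - T) + jg' R T ^ 2 * H
def jg : S := jg' R T + x * jG x R T H e
def jE : S := e + 2 * jg x R T H e * jG x R T H e ^ 2 - x * jG x R T H e ^ 3
  - jG x R T H e * T * jA x R T H e
def js : S := jA x R T H e ^ 2 + jg x R T H e * jE x R T H e
def ja : S := jA x R T H e - jg x R T H e * js x R T H e
def jw : S := jE x R T H e + js x R T H e * (ja x R T H e + jA x R T H e)
def jrho : S := R + x * js x R T H e
def jk : S := T - x * jw x R T H e
def jb : S := jG x R T H e + jrho x R T H e * jw x R T H e - js x R T H e * T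
def jF : S := x * ja x R T H e + jg x R T H e * jrho x R T H e
def jq : S := x - jg x R T H e * jF x R T H e
def jp : S := ja x R T H e * jF x R T H e + jrho x R T H e
def jr : S := ja x R T H e ^ 2 * jk x R T H e
  - (1 + ja x R T H e * jg x R T H e) * jb x R T H e

end inv

section forward2
variable {S : Type*} [CommRing S] (a p q r w : S)

def fH : S := ju (fR a p q r w) (fT a p q r w) * fG a p q r w
  + jv (fT a p q r w) * fA a p q r w

/-- `g = g' + x G` -/
theorem f_g : gg a p q r = jg' (fR a p q r w) (fT a p q r w) + xx a p q r * fG a p q r w := by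
  have h := id_g a p q r
  simp only [jg', fG, fR, fT] at *
  linear_combination h

/-- `x e - T = g'^2 G + (R - g' T) A` -/
theorem f_key : xx a p q r * fe a p q r w - fT a p q r w =
    jg' (fR a p q r w) (fT a p q r w) ^ 2 * fG a p q r w
      + (fR a p q r w - jg' (fR a p q r w) (fT a p q r w) * fT a p q r w) * fA a p q r w := by
  have hg : jg' (fR a p q r w) (fT a p q r w) = gg a p q r - xx a p q r * fG a p q r w := by
    rw [f_g a p q r w]; ring
  have hk := id_k a p q r
  have ht : tt a p q r = gg a p q r * kk a p q r - xx a p q r * a ^ 2 := rfl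
  rw [hg]
  rw [ht] at hk
  have h1 : xx a p q r * fE a p q r w - fT a p q r w = gg a p q r ^ 2 * fG a p q r w
      + fR a p q r w * fA a p q r w - gg a p q r * fT a p q r w * fA a p q r w := by
    simp only [fE, fT, fG, fR, fA, fs] at *
    linear_combination (-1 : S) * hk
  simp only [fe]
  linear_combination h1


local notation "X'" => xx a p q r
local notation "R'" => fR a p q r w
local notation "T'" => fT a p q r w
local notation "H'" => fH a p q r w
local notation "e'" => fe a p q r w

theorem f_jG : jG X' R' T' H' e' = fG a p q r w := by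
  have hk := f_key a p q r w
  have hu := juv (fR a p q r w) (fT a p q r w)
  simp only [jG, fH]
  rw [hk]
  linear_combination (fG a p q r w) * hu

theorem f_jA : jA X' R' T' H' e' = fA a p q r w := by
  have hk := f_key a p q r w
  have hu := juv (fR a p q r w) (fT a p q r w)
  simp only [jA, fH]
  rw [hk]
  linear_combination (fA a p q r w) * hu

theorem f_jg : jg X' R' T' H' e' = gg a p q r := by
  simp only [jg, f_jG]
  exact (f_g a p q r w).symm

theorem f_jE : jE X' R' T' H' e' = fE a p q r w := by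
  rw [jE, f_jG, f_jA, f_jg]
  simp only [fe]
  ring

theorem f_js : js X' R' T' H' e' = fs a p q r w := by
  rw [js, f_jA, f_jg, f_jE]
  simp only [fE, fA, fs]
  ring

theorem f_ja : ja X' R' T' H' e' = a := by
  rw [ja, f_jA, f_jg, f_js]
  simp only [fA]
  ring

theorem f_jw : jw X' R' T' H' e' = w := by
  rw [jw, f_jA, f_js, f_jE, f_ja]
  simp only [fE]
  ring

theorem f_jrho : jrho X' R' T' H' e' = rho a p q r := by
  rw [jrho, f_js]
  simp only [fR]
  ring

theorem f_jk : jk X' R' T' H' e' = kk a p q r := by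
  rw [jk, f_jw]
  simp only [fT]
  ring

theorem f_jb : jb X' R' T' H' e' = bb a p q r := by
  rw [jb, f_jG, f_jrho, f_jw, f_js]
  simp only [fG]
  ring

theorem f_jF : jF X' R' T' H' e' = FF a p q r := by
  simp only [jF, f_ja, f_jg, f_jrho]
  exact (id_F a p q r).symm

theorem f_jq : jq X' R' T' H' e' = q := by
  simp only [jq, f_jg, f_jF]
  exact (id_q a p q r).symm

theorem f_jp : jp X' R' T' H' e' = p := by
  simp only [jp, f_ja, f_jF, f_jrho]
  exact (id_p a p q r).symm

theorem f_jr : jr X' R' T' H' e' = r := by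
  simp only [jr, f_ja, f_jk, f_jg, f_jb]
  exact (id_r a p q r).symm

end forward2

section inv2
variable {S : Type*} [CommRing S] (x R T H e : S)

local notation "a'" => ja x R T H e
local notation "p'" => jp x R T H e
local notation "q'" => jq x R T H e
local notation "r'" => jr x R T H e
local notation "w'" => jw x R T H e

/-- key relation in the target -/
theorem j_key : x * e - T = jg' R T ^ 2 * jG x R T H e + (R - jg' R T * T) * jA x R T H e := by
  have hu := juv R T
  simp only [jG, jA]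
  linear_combination (-(x * e - T)) * hu

theorem j_s : a' ^ 2 + jg x R T H e * w' = js x R T H e := by
  have hs : js x R T H e = jA x R T H e ^ 2 + jg x R T H e * jE x R T H e := rfl
  simp only [jw, ja]
  linear_combination (-1 : S) * hs

/-- relation (i) -/
theorem j_rel1 : jg x R T H e = 1 + jrho x R T H e * jk x R T H e + x * jb x R T H e := by
  have hg : jg x R T H e = jg' R T + x * jG x R T H e := rfl
  rw [hg]
  simp only [jrho, jk, jb, jg']
  ring

omit x R T H e in
theorem j_rel2_aux (x e T R g G A E w s a b ρ k : S)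
    (hkey : x * e - T = (g - x * G) ^ 2 * G + (R - (g - x * G) * T) * A)
    (hE : e = E - 2 * g * G ^ 2 + x * G ^ 3 + G * T * A)
    (hw : E = w - s * (a + A)) (hA : A = a + g * s) (hs : s = a ^ 2 + g * w)
    (hG : G = b - ρ * w + s * T) (hR : R = ρ - x * s) (hT : T = k + x * w) :
    k = a * (g * k - x * a ^ 2 - ρ) - g ^ 2 * b - g * ρ * a ^ 2 := by
  subst hE hw hG hR hT hA hs
  linear_combination (-1 : S) * hkey

/-- relation (ii) -/
theorem j_rel2 : jk x R T H e = a' * (jg x R T H e * jk x R T H e - x * a' ^ 2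
      - jrho x R T H e) - jg x R T H e ^ 2 * jb x R T H e
      - jg x R T H e * jrho x R T H e * a' ^ 2 := by
  have hkey := j_key x R T H e
  have hg : jg' R T = jg x R T H e - x * jG x R T H e := by
    simp only [jg]; ring
  rw [hg] at hkey
  have hE : e = jE x R T H e - 2 * jg x R T H e * jG x R T H e ^ 2 + x * jG x R T H e ^ 3
      + jG x R T H e * T * jA x R T H e := by
    simp only [jE]; ring
  have hw : jE x R T H e = w' - js x R T H e * (a' + jA x R T H e) := by
    simp only [jw]; ring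
  have hA : jA x R T H e = a' + jg x R T H e * js x R T H e := by
    simp only [ja]; ring
  have hs := j_s x R T H e
  have hG : jG x R T H e = jb x R T H e - jrho x R T H e * w' + js x R T H e * T := by
    simp only [jb]; ring
  have hR : R = jrho x R T H e - x * js x R T H e := by
    simp only [jrho]; ring
  have hT : T = jk x R T H e + x * w' := by
    simp only [jk]; ring
  exact j_rel2_aux _ _ _ _ _ _ _ _ _ _ _ _ _ _ hkey hE hw hA hs.symm hG hR hT

theorem j_gg : gg a' p' q' r' = jg x R T H e := by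
  have h1 := j_rel1 x R T H e
  have h2 := j_rel2 x R T H e
  simp only [gg, jp, jq, jr, jF]
  linear_combination (-1 : S) * h1 - (jrho x R T H e * (1 + a' * jg x R T H e) + a' ^ 2 * x) * h2

theorem j_FF : FF a' p' q' r' = jF x R T H e := by
  simp only [FF, j_gg]
  simp only [jp, jq, jF]
  ring

theorem j_xx : xx a' p' q' r' = x := by
  simp only [xx, j_gg, j_FF]
  simp only [jq]
  ring

theorem j_rho : rho a' p' q' r' = jrho x R T H e := by
  simp only [rho, j_gg]
  simp only [jp, jq, jF]
  ring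

theorem j_kk : kk a' p' q' r' = jk x R T H e := by
  have h2 := j_rel2 x R T H e
  simp only [kk, j_gg]
  simp only [jp, jr, jF]
  linear_combination (-1 - a' * jg x R T H e) * h2

theorem j_bb : bb a' p' q' r' = jb x R T H e := by
  have h2 := j_rel2 x R T H e
  simp only [bb, j_gg]
  simp only [jp, jr, jF]
  linear_combination (- a' ^ 2) * h2

theorem j_fs : fs a' p' q' r' w' = js x R T H e := by
  rw [fs, j_gg, j_s]

theorem j_fR : fR a' p' q' r' w' = R := by
  rw [fR, j_rho, j_xx, j_fs]
  simp only [jrho]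
  ring

theorem j_fT : fT a' p' q' r' w' = T := by
  rw [fT, j_kk, j_xx]
  simp only [jk]
  ring

theorem j_fA : fA a' p' q' r' w' = jA x R T H e := by
  rw [fA, j_gg, j_fs]
  simp only [ja]
  ring

theorem j_fG : fG a' p' q' r' w' = jG x R T H e := by
  rw [fG, j_bb, j_rho, j_fs, j_fT]
  simp only [jb]
  ring

theorem j_fE : fE a' p' q' r' w' = jE x R T H e := by
  rw [fE, j_fs, j_fA]
  simp only [jw]
  ring

theorem j_fe : fe a' p' q' r' w' = e := by
  rw [fe, j_fE, j_gg, j_fG, j_xx, j_fT, j_fA]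
  simp only [jE]
  ring

theorem j_fH : fH a' p' q' r' w' = H := by
  rw [fH, j_fR, j_fT, j_fG, j_fA]
  have hu := juv R T
  simp only [jG, jA]
  linear_combination H * hu

end inv2

/-! ### naturality -/

section map
variable {S S' K : Type*} [CommRing S] [CommRing S'] [FunLike K S S'] [RingHomClass K S S']
  (φ : K)

theorem map_gg (a p q r : S) : φ (gg a p q r) = gg (φ a) (φ p) (φ q) (φ r) := by
  simp only [gg, map_sub, map_mul, map_pow, map_one]
theorem map_FF (a p q r : S) : φ (FF a p q r) = FF (φ a) (φ p) (φ q) (φ r) := by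
  simp only [FF, map_gg, map_add, map_mul]
theorem map_xx (a p q r : S) : φ (xx a p q r) = xx (φ a) (φ p) (φ q) (φ r) := by
  simp only [xx, map_gg, map_FF, map_add, map_mul]
theorem map_rho (a p q r : S) : φ (rho a p q r) = rho (φ a) (φ p) (φ q) (φ r) := by
  simp only [rho, map_gg, map_sub, map_mul, map_pow, map_one]
theorem map_kk (a p q r : S) : φ (kk a p q r) = kk (φ a) (φ p) (φ q) (φ r) := by
  simp only [kk, map_gg, map_sub, map_add, map_mul, map_pow, map_one]
theorem map_bb (a p q r : S) : φ (bb a p q r) = bb (φ a) (φ p) (φ q) (φ r) := by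
  simp only [bb, map_gg, map_sub, map_neg, map_mul, map_pow, map_one]
theorem map_fs (a p q r w : S) : φ (fs a p q r w) = fs (φ a) (φ p) (φ q) (φ r) (φ w) := by
  simp only [fs, map_gg, map_add, map_mul, map_pow]
theorem map_fR (a p q r w : S) : φ (fR a p q r w) = fR (φ a) (φ p) (φ q) (φ r) (φ w) := by
  simp only [fR, map_rho, map_xx, map_fs, map_sub, map_mul]
theorem map_fT (a p q r w : S) : φ (fT a p q r w) = fT (φ a) (φ p) (φ q) (φ r) (φ w) := by
  simp only [fT, map_kk, map_xx, map_add, map_mul]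
theorem map_fA (a p q r w : S) : φ (fA a p q r w) = fA (φ a) (φ p) (φ q) (φ r) (φ w) := by
  simp only [fA, map_gg, map_fs, map_add, map_mul]
theorem map_fG (a p q r w : S) : φ (fG a p q r w) = fG (φ a) (φ p) (φ q) (φ r) (φ w) := by
  simp only [fG, map_bb, map_rho, map_fs, map_fT, map_sub, map_add, map_mul]
theorem map_fE (a p q r w : S) : φ (fE a p q r w) = fE (φ a) (φ p) (φ q) (φ r) (φ w) := by
  simp only [fE, map_fs, map_fA, map_sub, map_add, map_mul]
theorem map_fe (a p q r w : S) : φ (fe a p q r w) = fe (φ a) (φ p) (φ q) (φ r) (φ w) := by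
  simp only [fe, map_fE, map_gg, map_fG, map_xx, map_fT, map_fA, map_sub, map_add, map_mul,
    map_pow, map_ofNat]
theorem map_jg' (R T : S) : φ (jg' R T) = jg' (φ R) (φ T) := by
  simp only [jg', map_add, map_mul, map_one]
theorem map_jv (T : S) : φ (jv T) = jv (φ T) := by
  simp only [jv, map_sub, map_pow, map_one]
theorem map_ju (R T : S) : φ (ju R T) = ju (φ R) (φ T) := by
  simp only [ju, map_jg', map_add, map_sub, map_mul, map_pow, map_one]
theorem map_fH (a p q r w : S) : φ (fH a p q r w) = fH (φ a) (φ p) (φ q) (φ r) (φ w) := by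
  simp only [fH, map_ju, map_jv, map_fR, map_fT, map_fG, map_fA, map_add, map_mul]

variable (x R T H e : S)
theorem map_jG : φ (jG x R T H e) = jG (φ x) (φ R) (φ T) (φ H) (φ e) := by
  simp only [jG, map_jv, map_jg', map_sub, map_mul]
theorem map_jA : φ (jA x R T H e) = jA (φ x) (φ R) (φ T) (φ H) (φ e) := by
  simp only [jA, map_ju, map_jg', map_sub, map_add, map_neg, map_mul, map_pow]
theorem map_jg : φ (jg x R T H e) = jg (φ x) (φ R) (φ T) (φ H) (φ e) := by
  simp only [jg, map_jG, map_jg', map_add, map_mul]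
theorem map_jE : φ (jE x R T H e) = jE (φ x) (φ R) (φ T) (φ H) (φ e) := by
  simp only [jE, map_jG, map_jA, map_jg, map_sub, map_add, map_mul, map_pow, map_ofNat]
theorem map_js : φ (js x R T H e) = js (φ x) (φ R) (φ T) (φ H) (φ e) := by
  simp only [js, map_jE, map_jA, map_jg, map_add, map_mul, map_pow]
theorem map_ja : φ (ja x R T H e) = ja (φ x) (φ R) (φ T) (φ H) (φ e) := by
  simp only [ja, map_js, map_jA, map_jg, map_sub, map_mul]
theorem map_jw : φ (jw x R T H e) = jw (φ x) (φ R) (φ T) (φ H) (φ e) := by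
  simp only [jw, map_js, map_jA, map_ja, map_jE, map_add, map_mul]
theorem map_jrho : φ (jrho x R T H e) = jrho (φ x) (φ R) (φ T) (φ H) (φ e) := by
  simp only [jrho, map_js, map_add, map_mul]
theorem map_jk : φ (jk x R T H e) = jk (φ x) (φ R) (φ T) (φ H) (φ e) := by
  simp only [jk, map_jw, map_sub, map_mul]
theorem map_jb : φ (jb x R T H e) = jb (φ x) (φ R) (φ T) (φ H) (φ e) := by
  simp only [jb, map_jG, map_jrho, map_jw, map_js, map_sub, map_add, map_mul]
theorem map_jF : φ (jF x R T H e) = jF (φ x) (φ R) (φ T) (φ H) (φ e) := by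
  simp only [jF, map_ja, map_jg, map_jrho, map_add, map_mul]
theorem map_jq : φ (jq x R T H e) = jq (φ x) (φ R) (φ T) (φ H) (φ e) := by
  simp only [jq, map_jg, map_jF, map_sub, map_mul]
theorem map_jp : φ (jp x R T H e) = jp (φ x) (φ R) (φ T) (φ H) (φ e) := by
  simp only [jp, map_ja, map_jF, map_jrho, map_add, map_mul]
theorem map_jr : φ (jr x R T H e) = jr (φ x) (φ R) (φ T) (φ H) (φ e) := by
  simp only [jr, map_ja, map_jk, map_jg, map_jb, map_sub, map_add, map_mul, map_pow, map_one]

end map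

/-! ### the automorphism -/

open MvPolynomial

noncomputable section

/-- variables -/
def y (i : Fin 4) : Polynomial P4 := Polynomial.C (X i)
def yw : Polynomial P4 := Polynomial.X

/-- images of the four variables under the forward map (target variables `a,p,q,r,w`) -/
def uf : Fin 4 → Polynomial P4 :=
  ![xx (y 0) (y 1) (y 2) (y 3), fR (y 0) (y 1) (y 2) (y 3) yw, fT (y 0) (y 1) (y 2) (y 3) yw,
    fH (y 0) (y 1) (y 2) (y 3) yw]

/-- images of the four variables under the backward map (target variables `x,R,T,H,e`) -/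
def ub : Fin 4 → Polynomial P4 :=
  ![ja (y 0) (y 1) (y 2) (y 3) yw, jp (y 0) (y 1) (y 2) (y 3) yw, jq (y 0) (y 1) (y 2) (y 3) yw,
    jr (y 0) (y 1) (y 2) (y 3) yw]

def Phi : Polynomial P4 →ₐ[ℂ] Polynomial P4 :=
  Polynomial.eval₂AlgHom (aeval uf) (fe (y 0) (y 1) (y 2) (y 3) yw) (fun _ => Commute.all _ _)

def Psi : Polynomial P4 →ₐ[ℂ] Polynomial P4 :=
  Polynomial.eval₂AlgHom (aeval ub) (jw (y 0) (y 1) (y 2) (y 3) yw) (fun _ => Commute.all _ _)

theorem Phi_y (i : Fin 4) : Phi (y i) = uf i := by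
  simp [Phi, y]
theorem Phi_yw : Phi yw = fe (y 0) (y 1) (y 2) (y 3) yw := by
  simp [Phi, yw]
theorem Psi_y (i : Fin 4) : Psi (y i) = ub i := by
  simp [Psi, y]
theorem Psi_yw : Psi yw = jw (y 0) (y 1) (y 2) (y 3) yw := by
  simp [Psi, yw]

theorem ext_aux {f g : Polynomial P4 →ₐ[ℂ] Polynomial P4} (h : ∀ i, f (y i) = g (y i))
    (hw : f yw = g yw) : f = g := by
  apply Polynomial.algHom_ext'
  · apply MvPolynomial.algHom_ext
    intro i
    exact h i
  · exact hw

theorem Phi_y0 : Phi (y 0) = xx (y 0) (y 1) (y 2) (y 3) := Phi_y 0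
theorem Phi_y1 : Phi (y 1) = fR (y 0) (y 1) (y 2) (y 3) yw := Phi_y 1
theorem Phi_y2 : Phi (y 2) = fT (y 0) (y 1) (y 2) (y 3) yw := Phi_y 2
theorem Phi_y3 : Phi (y 3) = fH (y 0) (y 1) (y 2) (y 3) yw := Phi_y 3
theorem Psi_y0 : Psi (y 0) = ja (y 0) (y 1) (y 2) (y 3) yw := Psi_y 0
theorem Psi_y1 : Psi (y 1) = jp (y 0) (y 1) (y 2) (y 3) yw := Psi_y 1
theorem Psi_y2 : Psi (y 2) = jq (y 0) (y 1) (y 2) (y 3) yw := Psi_y 2
theorem Psi_y3 : Psi (y 3) = jr (y 0) (y 1) (y 2) (y 3) yw := Psi_y 3

theorem Phi_Psi : Phi.comp Psi = AlgHom.id ℂ _ := by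
  apply ext_aux
  · intro i
    simp only [AlgHom.comp_apply, AlgHom.id_apply]
    fin_cases i
    · change Phi (Psi (y 0)) = y 0
      rw [Psi_y0, map_ja, Phi_y0, Phi_y1, Phi_y2, Phi_y3, Phi_yw, f_ja]
    · change Phi (Psi (y 1)) = y 1
      rw [Psi_y1, map_jp, Phi_y0, Phi_y1, Phi_y2, Phi_y3, Phi_yw, f_jp]
    · change Phi (Psi (y 2)) = y 2
      rw [Psi_y2, map_jq, Phi_y0, Phi_y1, Phi_y2, Phi_y3, Phi_yw, f_jq]
    · change Phi (Psi (y 3)) = y 3
      rw [Psi_y3, map_jr, Phi_y0, Phi_y1, Phi_y2, Phi_y3, Phi_yw, f_jr]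
  · simp only [AlgHom.comp_apply, AlgHom.id_apply]
    rw [Psi_yw, map_jw, Phi_y0, Phi_y1, Phi_y2, Phi_y3, Phi_yw, f_jw]

theorem Psi_Phi : Psi.comp Phi = AlgHom.id ℂ _ := by
  apply ext_aux
  · intro i
    simp only [AlgHom.comp_apply, AlgHom.id_apply]
    fin_cases i
    · change Psi (Phi (y 0)) = y 0
      rw [Phi_y0, map_xx, Psi_y0, Psi_y1, Psi_y2, Psi_y3, j_xx]
    · change Psi (Phi (y 1)) = y 1
      rw [Phi_y1, map_fR, Psi_y0, Psi_y1, Psi_y2, Psi_y3, Psi_yw, j_fR]
    · change Psi (Phi (y 2)) = y 2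
      rw [Phi_y2, map_fT, Psi_y0, Psi_y1, Psi_y2, Psi_y3, Psi_yw, j_fT]
    · change Psi (Phi (y 3)) = y 3
      rw [Phi_y3, map_fH, Psi_y0, Psi_y1, Psi_y2, Psi_y3, Psi_yw, j_fH]
  · simp only [AlgHom.comp_apply, AlgHom.id_apply]
    rw [Phi_yw, map_fe, Psi_y0, Psi_y1, Psi_y2, Psi_y3, Psi_yw, j_fe]

/-- The automorphism of `B[w]`. -/
def sigma : Polynomial P4 ≃ₐ[ℂ] Polynomial P4 := AlgEquiv.ofAlgHom Psi Phi Psi_Phi Phi_Psi

end

end Crest.Agent.R268.St

namespace Crest.Agent.R268
open MvPolynomial St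

/-- **T3**: `fB` is a `1`-stable coordinate. -/
theorem stable : ∃ σ : Polynomial P4 ≃ₐ[ℂ] Polynomial P4,
    σ (Polynomial.C fB) = Polynomial.C (X 0) := by
  refine ⟨sigma, ?_⟩
  change Psi (Polynomial.C fB) = y 0
  have h : (Polynomial.C fB : Polynomial P4) = xx (y 0) (y 1) (y 2) (y 3) := by
    rw [fB, map_xx]
    rfl
  rw [h, map_xx, Psi_y0, Psi_y1, Psi_y2, Psi_y3, j_xx]

end Crest.Agent.R268
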